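import Vale.Agent.P322.W.Core

/-!
Planes below `S(u,w)`: the separation criterion with the improved treatment of the two
quadrants, and the Cauchy-Schwarz family.
-/

namespace Vale.Agent.P322

open Real

/-- The derivative of the entropy. -/
lemma hasDerivAt_hd {x : ℝ} (h0 : 0 < x) (h1 : x < 1) :
    HasDerivAt (fun t => log (1 - t) - log t) (-(1 / (x * (1 - x)))) x := by
  have h3 : HasDerivAt (fun t : ℝ => 1 - t) (-1) x := by
    simpa using (hasDerivAt_id x).const_sub 1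
  have h4 := (h3.log (by linarith : (1 - x) ≠ 0)).sub (hasDerivAt_log h0.ne')
  refine h4.congr_deriv ?_
  have hx : 1 - x ≠ 0 := by linarith
  field_simp
  ring

lemma hasDerivAt_entropy_comp {a b x : ℝ} (h0 : 0 < a * x + b) (h1 : a * x + b < 1) :
    HasDerivAt (fun t => binEntropy (a * t + b)) (a * (log (1 - (a * x + b)) - log (a * x + b))) x := by
  have h2 : HasDerivAt (fun t : ℝ => a * t + b) a x := by
    simpa using ((hasDerivAt_id x).const_mul a).add_const b
  have h3 := (hasDerivAt_binEntropy h0.ne' h1.ne).comp x h2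
  refine h3.congr_deriv ?_
  ring

lemma hasDerivAt_hd_comp {a b x : ℝ} (h0 : 0 < a * x + b) (h1 : a * x + b < 1) :
    HasDerivAt (fun t => a * (log (1 - (a * t + b)) - log (a * t + b)))
      (-(a ^ 2 / ((a * x + b) * (1 - (a * x + b))))) x := by
  have h2 : HasDerivAt (fun t : ℝ => a * t + b) a x := by
    simpa using ((hasDerivAt_id x).const_mul a).add_const b
  have h3 := (hasDerivAt_hd h0 h1).comp x h2
  have h4 := h3.const_mul a
  refine h4.congr_deriv ?_
  field_simp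

/-- Concavity in `u` in the quadrant `w ≤ u ≤ 1/2`. -/
lemma quad_concave {ε μ w : ℝ} (h0 : 0 < ε) (h1 : ε ≤ 1 / 2) (hμ : 2 * (ε * (1 - ε)) ≤ μ)
    (hw0 : 0 ≤ w) :
    ConcaveOn ℝ (Set.Icc w (1 / 2)) (fun u => SS ε u w - (1 - μ) * binEntropy u) := by
  have hα : 0 < 1 - ε := by linarith
  -- first derivative
  have hbd : ∀ x ∈ Set.Ioo w (1 / 2 : ℝ),
      0 < x ∧ x < 1 ∧ 0 < (1 - ε) * x + ε * w ∧ (1 - ε) * x + ε * w ≤ x ∧
      0 < ε * x + (1 - ε) * w ∧ ε * x + (1 - ε) * w ≤ x := by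
    intro x hx
    have hx0 : 0 < x := by linarith [hx.1]
    have hx1 : x < 1 / 2 := hx.2
    have hwx : w < x := hx.1
    refine ⟨hx0, by linarith, ?_, ?_, ?_, ?_⟩
    · have : 0 < (1 - ε) * x := mul_pos hα hx0
      have : 0 ≤ ε * w := mul_nonneg h0.le hw0
      linarith
    · nlinarith
    · have : 0 < ε * x := mul_pos h0 hx0
      have : 0 ≤ (1 - ε) * w := mul_nonneg hα.le hw0
      linarith
    · nlinarith
  have hd1 : ∀ x ∈ Set.Ioo w (1 / 2 : ℝ), HasDerivAt (fun u => SS ε u w - (1 - μ) * binEntropy u)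
      ((1 - ε) * (log (1 - ((1 - ε) * x + ε * w)) - log ((1 - ε) * x + ε * w))
        + ε * (log (1 - (ε * x + (1 - ε) * w)) - log (ε * x + (1 - ε) * w))
        - (1 - μ) * (log (1 - x) - log x)) x := by
    intro x hx
    obtain ⟨hx0, hx1, hp0, hp1, hq0, hq1⟩ := hbd x hx
    have hx2 : x < 1 / 2 := hx.2
    have d1 := hasDerivAt_entropy_comp (a := 1 - ε) (b := ε * w) (x := x) hp0 (by linarith)
    have d2 := hasDerivAt_entropy_comp (a := ε) (b := (1 - ε) * w) (x := x) hq0 (by linarith)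
    have d3 := (hasDerivAt_binEntropy hx0.ne' hx1.ne).const_mul (1 - μ)
    exact (d1.add d2).sub d3
  have hd2 : ∀ x ∈ Set.Ioo w (1 / 2 : ℝ), HasDerivAt
      (fun x => (1 - ε) * (log (1 - ((1 - ε) * x + ε * w)) - log ((1 - ε) * x + ε * w))
        + ε * (log (1 - (ε * x + (1 - ε) * w)) - log (ε * x + (1 - ε) * w))
        - (1 - μ) * (log (1 - x) - log x))
      (-((1 - ε) ^ 2 / (((1 - ε) * x + ε * w) * (1 - ((1 - ε) * x + ε * w))))
        + -(ε ^ 2 / ((ε * x + (1 - ε) * w) * (1 - (ε * x + (1 - ε) * w))))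
        - (1 - μ) * (-(1 / (x * (1 - x))))) x := by
    intro x hx
    obtain ⟨hx0, hx1, hp0, hp1, hq0, hq1⟩ := hbd x hx
    have hx2 : x < 1 / 2 := hx.2
    have d1 := hasDerivAt_hd_comp (a := 1 - ε) (b := ε * w) (x := x) hp0 (by linarith)
    have d2 := hasDerivAt_hd_comp (a := ε) (b := (1 - ε) * w) (x := x) hq0 (by linarith)
    have d3 := (hasDerivAt_hd hx0 hx1).const_mul (1 - μ)
    exact (d1.add d2).sub d3
  have hanti : AntitoneOn (fun x => (1 - ε) * (log (1 - ((1 - ε) * x + ε * w)) - log ((1 - ε) * x + ε * w))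
        + ε * (log (1 - (ε * x + (1 - ε) * w)) - log (ε * x + (1 - ε) * w))
        - (1 - μ) * (log (1 - x) - log x)) (Set.Ioo w (1 / 2 : ℝ)) := by
    apply antitoneOn_of_deriv_nonpos (convex_Ioo _ _)
    · exact fun x hx => (hd2 x hx).continuousAt.continuousWithinAt
    · rw [interior_Ioo]
      exact fun x hx => (hd2 x hx).differentiableAt.differentiableWithinAt
    · rw [interior_Ioo]
      intro x hx
      rw [(hd2 x hx).deriv]
      obtain ⟨hx0, hx1, hp0, hp1, hq0, hq1⟩ := hbd x hx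
      have hx2 : x < 1 / 2 := hx.2
      set p := (1 - ε) * x + ε * w with hp
      set q := ε * x + (1 - ε) * w with hq
      have hφ : 0 < x * (1 - x) := mul_pos hx0 (by linarith)
      have hφp : 0 < p * (1 - p) := mul_pos hp0 (by linarith)
      have hφq : 0 < q * (1 - q) := mul_pos hq0 (by linarith)
      have hpx : p * (1 - p) ≤ x * (1 - x) := by nlinarith
      have hqx : q * (1 - q) ≤ x * (1 - x) := by nlinarith
      have t1 : (1 - ε) ^ 2 / (x * (1 - x)) ≤ (1 - ε) ^ 2 / (p * (1 - p)) :=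
        div_le_div_of_nonneg_left (sq_nonneg _) hφp hpx
      have t2 : ε ^ 2 / (x * (1 - x)) ≤ ε ^ 2 / (q * (1 - q)) :=
        div_le_div_of_nonneg_left (sq_nonneg _) hφq hqx
      have t3 : (1 - μ) * (1 / (x * (1 - x))) ≤ ((1 - ε) ^ 2 + ε ^ 2) * (1 / (x * (1 - x))) := by
        apply mul_le_mul_of_nonneg_right _ (by positivity)
        nlinarith
      have e1 : ((1 - ε) ^ 2 + ε ^ 2) * (1 / (x * (1 - x)))
          = (1 - ε) ^ 2 / (x * (1 - x)) + ε ^ 2 / (x * (1 - x)) := by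
        ring
      linarith
  have hcont : ContinuousOn (fun u => SS ε u w - (1 - μ) * binEntropy u) (Set.Icc w (1 / 2 : ℝ)) := by
    have c1 : Continuous binEntropy := binEntropy_continuous
    unfold SS
    fun_prop
  apply AntitoneOn.concaveOn_of_deriv (convex_Icc _ _) hcont
  · rw [interior_Icc]
    exact fun x hx => (hd1 x hx).differentiableAt.differentiableWithinAt
  · rw [interior_Icc]
    intro x hx y hy hxy
    rw [(hd1 x hx).deriv, (hd1 y hy).deriv]
    exact hanti hx hy hxy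

/-- The separation inequality. -/
def Sep (ε μ δ : ℝ) : Prop :=
  ∀ e ∈ Set.Icc (0 : ℝ) (1 / 2),
    F1 ε e ≤ μ * binEntropy e + 2 * binEntropy ε * e + binEntropy ε * δ * (1 / 2 - e)

/-- The plane in the mixed quadrant. -/
lemma plane_mixed {ε μ δ : ℝ} (h0 : 0 ≤ ε) (h1 : ε ≤ 1) (hsep : Sep ε μ δ)
    {u w : ℝ} (hu : u ∈ Set.Icc (0 : ℝ) 1) (hw : w ∈ Set.Icc (0 : ℝ) 1) (hu2 : 1 / 2 ≤ u)
    (hw2 : w ≤ 1 / 2) :
    (1 - μ) * (binEntropy u + binEntropy w) + binEntropy ε * (2 - δ) * (u - w) ≤ SS ε u w := by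
  have s1 := hsep (1 - u) ⟨by linarith [hu.2], by linarith⟩
  have s2 := hsep w ⟨hw.1, hw2⟩
  rw [binEntropy_one_sub] at s1
  have := SS_ge_sub h0 h1 hu hw
  nlinarith

/-- The plane in the lower quadrant. -/
lemma plane_quad {ε μ δ : ℝ} (h0 : 0 < ε) (h1 : ε ≤ 1 / 2) (hμ : 2 * (ε * (1 - ε)) ≤ μ)
    (hsep : Sep ε μ δ) {u w : ℝ} (hw0 : 0 ≤ w) (hwu : w ≤ u) (hu2 : u ≤ 1 / 2) :
    (1 - μ) * (binEntropy u + binEntropy w) + binEntropy ε * (2 - δ) * (u - w) ≤ SS ε u w := by
  have hμ0 : 0 ≤ μ := by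
    have : 0 ≤ ε * (1 - ε) := mul_nonneg h0.le (by linarith)
    linarith
  have hW : 0 ≤ binEntropy w := binEntropy_nonneg hw0 (by linarith)
  have hm := plane_mixed h0.le (by linarith) hsep (u := 1 / 2) (w := w) ⟨by norm_num, by norm_num⟩
    ⟨hw0, by linarith⟩ (le_refl _) (by linarith)
  rcases eq_or_lt_of_le (hwu.trans hu2) with hwe | hwlt
  · have e1 : u = 1 / 2 := by linarith
    rw [e1]
    exact hm
  have hc := quad_concave (μ := μ) (w := w) h0 h1 hμ hw0
  set D := 1 / 2 - w with hDdef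
  have hd : 0 < D := by rw [hDdef]; linarith
  set t := (u - w) / D with ht
  have htD : t * D = u - w := by
    rw [ht]
    exact div_mul_cancel₀ _ hd.ne'
  have ht0 : 0 ≤ t := div_nonneg (by linarith) hd.le
  have ht1 : t ≤ 1 := by
    rw [ht, div_le_one hd, hDdef]
    linarith
  have hk := hc.2 (show w ∈ Set.Icc w (1 / 2 : ℝ) from ⟨le_refl _, hwlt.le⟩)
    (show (1 / 2 : ℝ) ∈ Set.Icc w (1 / 2 : ℝ) from ⟨hwlt.le, le_refl _⟩)
    (show 0 ≤ 1 - t by linarith) ht0 (by ring)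
  simp only [smul_eq_mul] at hk
  have e2 : (1 - t) * w + t * (1 / 2) = u := by
    have : (1 - t) * w + t * (1 / 2) = w + t * D := by rw [hDdef]; ring
    rw [this, htD]
    ring
  rw [e2] at hk
  have hSww : SS ε w w = 2 * binEntropy w := by
    unfold SS
    rw [show (1 - ε) * w + ε * w = w by ring, show ε * w + (1 - ε) * w = w by ring]
    ring
  rw [hSww] at hk
  have hprod := mul_le_mul_of_nonneg_left hm ht0
  have hμW : 0 ≤ (1 - t) * (2 * μ * binEntropy w) := by
    have : 0 ≤ 1 - t := by linarith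
    positivity
  rw [← htD]
  set H := binEntropy ε * (2 - δ) with hH
  nlinarith [hk, hprod, hμW]

/-- The improved plane criterion. -/
theorem plane_of_sep2 {ε μ δ : ℝ} (h0 : 0 < ε) (h1 : ε ≤ 1 / 2) (hμ : 2 * (ε * (1 - ε)) ≤ μ)
    (hsep : Sep ε μ δ) : Plane ε μ (binEntropy ε * (2 - δ)) := by
  have main : ∀ u w : ℝ, u ∈ Set.Icc (0 : ℝ) 1 → w ∈ Set.Icc (0 : ℝ) 1 → w ≤ u →
      (1 - μ) * (binEntropy u + binEntropy w) + binEntropy ε * (2 - δ) * (u - w) ≤ SS ε u w := by
    intro u w hu hw huw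
    by_cases hu2 : u ≤ 1 / 2
    · exact plane_quad h0 h1 hμ hsep hw.1 huw hu2
    by_cases hw2 : 1 / 2 ≤ w
    · have := plane_quad h0 h1 hμ hsep (u := 1 - w) (w := 1 - u) (by linarith [hu.2]) (by linarith)
        (by linarith)
      rw [binEntropy_one_sub, binEntropy_one_sub, SS_reflect,
        show 1 - w - (1 - u) = u - w by ring, add_comm (binEntropy w)] at this
      exact this
    · rw [not_le] at hu2 hw2
      exact plane_mixed h0.le (by linarith) hsep hu hw hu2.le hw2.le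
  intro u w hu hw
  rcases le_total w u with h | h
  · rw [abs_of_nonneg (by linarith)]
    exact main u w hu hw h
  · rw [abs_of_nonpos (by linarith), neg_sub, add_comm (binEntropy u), SS_comm]
    exact main w u hw hu h

/-- `4 log 2 · x(1-x) ≤ h(x)`. -/
lemma entropy_ge_four {x : ℝ} (h0 : 0 ≤ x) (h1 : x ≤ 1) :
    4 * log 2 * (x * (1 - x)) ≤ binEntropy x := by
  have hl : 0 < log 2 := log_pos (by norm_num)
  rcases eq_or_lt_of_le h0 with rfl | h0'
  · simp
  rcases eq_or_lt_of_le h1 with rfl | h1'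
  · simp
  have hz : |2 * x - 1| ≤ 1 := by
    rw [abs_le]
    constructor <;> linarith
  have h2 := Om_le hz
  have e : Om (2 * x - 1) = 2 * log 2 - 2 * binEntropy x := by
    unfold Om binEntropy
    rw [show 1 + (2 * x - 1) = 2 * x by ring, show 1 - (2 * x - 1) = 2 * (1 - x) by ring,
      log_mul (by norm_num) h0'.ne', log_mul (by norm_num) (by linarith : (1 - x) ≠ 0),
      log_inv, log_inv]
    ring
  rw [e] at h2
  nlinarith

/-- The pointwise bound for `φ` at the midpoint. -/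
lemma phi_mid_le2 {u w : ℝ} (hu : u ∈ Set.Icc (0 : ℝ) 1) (hw : w ∈ Set.Icc (0 : ℝ) 1) :
    (u + w) / 2 * (1 - (u + w) / 2)
      ≤ (binEntropy u + binEntropy w) / (8 * log 2) + |u - w| / 4 := by
  have hl : 0 < log 2 := log_pos (by norm_num)
  have h1 := entropy_ge_four hu.1 hu.2
  have h2 := entropy_ge_four hw.1 hw.2
  have hab : |u - w| ≤ 1 := by
    rw [abs_le]
    constructor <;> linarith [hu.1, hu.2, hw.1, hw.2]
  have h3 : (u - w) ^ 2 ≤ |u - w| := by
    rw [← sq_abs]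
    nlinarith [abs_nonneg (u - w)]
  have e : (u + w) / 2 * (1 - (u + w) / 2)
      = (u * (1 - u) + w * (1 - w)) / 2 + (u - w) ^ 2 / 4 := by ring
  rw [e]
  have h4 : (u * (1 - u) + w * (1 - w)) / 2 ≤ (binEntropy u + binEntropy w) / (8 * log 2) := by
    rw [le_div_iff₀ (by positivity)]
    nlinarith
  linarith

/-- The Cauchy-Schwarz family of planes. -/
lemma plane_B {ε y : ℝ} (h0 : 0 ≤ ε) (h1 : ε ≤ 1 / 2) :
    Plane ε (ε * (1 - ε) * y ^ 2 / (8 * log 2)) (ε * (1 - ε) * (2 * y - y ^ 2 / 4)) := by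
  intro u w hu hw
  have hg := gap_ge h0 h1 hu hw y
  have hφ := phi_mid_le2 hu hw
  have hA : 0 ≤ ε * (1 - ε) * y ^ 2 := by
    have : 0 ≤ 1 - ε := by linarith
    positivity
  have h2 := mul_le_mul_of_nonneg_left hφ hA
  have hl : 0 < log 2 := log_pos (by norm_num)
  have e : (1 - ε * (1 - ε) * y ^ 2 / (8 * log 2)) * (binEntropy u + binEntropy w)
      = binEntropy u + binEntropy w
        - ε * (1 - ε) * y ^ 2 * ((binEntropy u + binEntropy w) / (8 * log 2)) := by
    field_simp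
  rw [e]
  nlinarith

end Vale.Agent.P322
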