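import Vale.Agent.P322.W.Check4

/-!
Soundness of the rows and the theorem for a block.
-/

namespace Vale.Agent.P322

open Real

/-- The size condition of the second method, in plain variables. -/
lemma B_size {H Hh κ C φ φL ξ Ξ Lc X il l d dB A Ah : ℝ} (hH : 0 ≤ H) (hHh : H ≤ Hh) (hκ : 0 ≤ κ)
    (hC : 0 ≤ C) (hφL : 0 < φL) (hφ : φL ≤ φ) (hξ0 : 0 ≤ ξ) (hξ : ξ ≤ Ξ) (hLc0 : 0 ≤ Lc) (hLc : Lc ≤ X)
    (hl : 0 < l) (hil : 1 / l ≤ il) (hd0 : 0 ≤ d) (hd : d ≤ dB) (hAh : Ah ≤ A)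
    (hchk : Hh * (κ * C * (8 * φL)⁻¹ + Ξ) * (Hh * X * il + dB) ≤ 2 * Ah) :
    H * (κ * C / (8 * φ) + ξ) * (H * Lc / l + d) ≤ 2 * A := by
  have hφ0 : 0 < φ := by linarith
  have h1 : κ * C / (8 * φ) ≤ κ * C * (8 * φL)⁻¹ := by
    rw [← div_eq_mul_inv]
    exact div_le_div_of_nonneg_left (by positivity) (by positivity) (by linarith)
  have hX0 : 0 ≤ X := by linarith
  have hil0 : 0 ≤ 1 / l := by positivity
  have hHh0 : 0 ≤ Hh := by linarith
  have hil1 : 0 ≤ il := by linarith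
  have h2 : H * Lc / l ≤ Hh * X * il := by
    have e : H * Lc / l = H * Lc * (1 / l) := by ring
    rw [e]
    exact mul_le_mul (mul_le_mul hHh hLc hLc0 hHh0) hil hil0 (by positivity)
  have h3 : H * (κ * C / (8 * φ) + ξ) ≤ Hh * (κ * C * (8 * φL)⁻¹ + Ξ) :=
    mul_le_mul hHh (by linarith) (by positivity) hHh0
  have h4 : H * (κ * C / (8 * φ) + ξ) * (H * Lc / l + d)
      ≤ Hh * (κ * C * (8 * φL)⁻¹ + Ξ) * (Hh * X * il + dB) :=
    mul_le_mul h3 (by linarith) (by positivity)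
      (mul_nonneg hHh0 (by
        have : 0 ≤ κ * C * (8 * φL)⁻¹ := by positivity
        linarith))
  linarith

/-- Soundness of a row. -/
lemma rowOK_sound {D : BlockD} (G : GlobalsR D) (hS : checkSubs D = true)
    (hP : ∀ q ∈ D.planes, PlaneR D q) {L : NF} {r : Row} (h : rowOK D L r = true) {ε : ℝ}
    (hε : ε ∈ Set.Icc (val D.elo) (val D.ehi)) :
    ∀ A ∈ Set.Icc (val L) (val r.AR), ∀ d, 0 < d → d ≤ 2 * A → d ≤ 1 - val D.x₀ →
      CloseAt ε (val D.κ) (A + d / 2) (A - d / 2) := by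
  unfold rowOK at h
  simp only [Bool.and_eq_true] at h
  obtain ⟨⟨⟨⟨⟨⟨⟨⟨⟨h1, h2⟩, h3⟩, h4⟩, h5⟩, h6⟩, h7⟩, h8⟩, h9⟩, h10⟩ := h
  have hL0 := npos_sound h1
  have hLR := nlt_sound h2
  have hR2 := nle_sound h3
  rw [val_half] at hR2
  have hp0 := npos_sound h4
  have hp2 := nle_sound h5
  rw [val_half] at hp2
  have hLL := nle_sound h6
  have hε0 : 0 < ε := lt_of_lt_of_le G.helo hε.1
  have hε2 : ε ≤ 1 / 2 := hε.2.trans G.hehi
  have hH : 0 ≤ binEntropy ε := binEntropy_nonneg hε0.le (by linarith)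
  have hξ0 : 0 ≤ 1 - val D.κ * log 2 := (val_nonneg _).trans G.hξlo
  have hκ := val_nonneg D.κ
  have hc1 : val (ncomp r.p) = 1 - val r.p := val_comp (by linarith)
  have hcp : 0 < val (ncomp r.p) := by
    rw [hc1]
    linarith
  have hip : val (ninv r.p) = 1 / val r.p := by
    rw [val_inv' hp0, one_div]
  have hiq : val (ninv (ncomp r.p)) = 1 / (1 - val r.p) := by
    rw [val_inv' hcp, hc1, one_div]
  have hLP : log (1 / val r.p) ≤ val (logHiF (ninv r.p)) := by
    have := le_logHiF' (x := ninv r.p) (by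
      rw [hip, le_div_iff₀ hp0]
      linarith)
    rwa [hip] at this
  have hLQ : log (1 / (1 - val r.p)) ≤ val (logHiF (ninv (ncomp r.p))) := by
    have := le_logHiF' (x := ninv (ncomp r.p)) (by
      rw [hiq, le_div_iff₀ (by linarith)]
      linarith)
    rwa [hiq] at this
  have RC : RowCtx D.κ D.Ξhi r.p (logHiF (ninv r.p)) (logHiF (ninv (ncomp r.p))) :=
    ⟨G.hξhi, hξ0, hp0, hp2, hLP, hLQ, hLL⟩
  intro A hA d hd0 hd2 hdx
  have hA2 : A ≤ 1 / 2 := hA.2.trans hR2
  have hA0 : 0 < A := lt_of_lt_of_le hL0 hA.1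
  have hmaj := LK_le_maj hκ G.hξhi hξ0 hp0 hp2 hLP hLQ hA0.le (by linarith)
  by_cases hdB : d ≤ val r.dB
  · -- the second method
    have hdz := nle_sound h8
    simp only [val_mul, val_nnat] at hdz
    push_cast at hdz
    have hz := G.hz1
    have hz0 := G.hz0
    have hL1 : val (ncomp L) = 1 - val L := val_comp (by linarith)
    have hdzA : d ≤ 2 * val D.z₀ * A := by
      have : 2 * val D.z₀ * val L ≤ 2 * val D.z₀ * A :=
        mul_le_mul_of_nonneg_left hA.1 (by linarith)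
      linarith
    obtain ⟨s, hs, hs1, hs2⟩ := subs_exists hS ε hε
    simp only [List.all_eq_true] at h9
    have hrb := h9 s hs
    unfold rowB at hrb
    have hrb' := nle_sound hrb
    have hφL : 0 < val L * (1 - val L) := mul_pos hL0 (by linarith)
    have h8pos : 0 < val (nmul (nnat 8) (nmul L (ncomp L))) := by
      rw [val_mul, val_mul, val_nnat, hL1]
      push_cast
      linarith
    simp only [val_add, val_mul, val_nnat] at hrb'
    rw [val_inv' h8pos, val_mul, val_mul, val_nnat, hL1, val_majF (by linarith) hp2] at hrb'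
    push_cast at hrb'
    have hm1 : 0 ≤ maj₁ (val D.κ) (val D.Ξhi) (val r.p) (val (logHiF (ninv r.p)))
        (val (logHiF (ninv (ncomp r.p)))) := by
      unfold maj₁
      have t1 : 0 ≤ val D.κ * (val (logHiF (ninv r.p)) - val (logHiF (ninv (ncomp r.p)))) :=
        mul_nonneg hκ (by linarith)
      have t2 : 0 ≤ val D.Ξhi * (4 * (1 - 2 * val r.p)) :=
        mul_nonneg (val_nonneg _) (by linarith)
      linarith
    have hLX : LK (val D.κ) A ≤ maj₀ (val D.κ) (val D.Ξhi) (val r.p) (val (logHiF (ninv r.p)))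
        (val (logHiF (ninv (ncomp r.p))))
        + maj₁ (val D.κ) (val D.Ξhi) (val r.p) (val (logHiF (ninv r.p)))
        (val (logHiF (ninv (ncomp r.p)))) * val r.AR := by
      have := mul_le_mul_of_nonneg_left hA.2 hm1
      linarith
    have hsize := B_size (H := binEntropy ε) (κ := val D.κ) (C := val D.C) (φ := A * (1 - A))
      (φL := val L * (1 - val L)) (ξ := 1 - val D.κ * log 2) (Ξ := val D.Ξhi) (Lc := LK (val D.κ) A)
      (l := log 2) (il := val il2F) (d := d) (dB := val r.dB) (A := ε * (1 - ε)) hH hs1 hκ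
      (val_nonneg _) hφL (eps_mono hL0.le hA.1 hA2) hξ0 G.hξhi (LK_nonneg hκ hξ0 hA0.le (by linarith))
      hLX (log_pos (by norm_num)) le_il2F hd0.le hdB hs2 hrb'
    exact close_B hε0 hε2 hκ hξ0 hA0 hA2 hd0 hd2 hdzA hz.le G.hC hsize
  · -- the cells
    rw [not_le] at hdB
    have htop : (val r.AR - val L) * d
        ≤ (val r.AR - A) * val r.tL + (A - val L) * val r.tR := by
      have hA3 : 0 ≤ val r.AR - A := by linarith [hA.2]
      have hA4 : 0 ≤ A - val L := by linarith [hA.1]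
      have e : val r.AR - val L = (val r.AR - A) + (A - val L) := by ring
      rcases Bool.or_eq_true _ _ |>.mp h7 with h7a | h7b
      · simp only [Bool.and_eq_true] at h7a
        have t1 := nle_sound h7a.1
        have t2 := nle_sound h7a.2
        have hx1 : val (ncomp D.x₀) = 1 - val D.x₀ := val_comp (by linarith [G.hx₀2])
        rw [hx1] at t1 t2
        have s1 := mul_le_mul_of_nonneg_left (hdx.trans t1) hA3
        have s2 := mul_le_mul_of_nonneg_left (hdx.trans t2) hA4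
        rw [e]
        linarith
      · simp only [Bool.and_eq_true] at h7b
        have t1 := nle_sound h7b.1
        have t2 := nle_sound h7b.2
        rw [val_mul, val_nnat] at t1 t2
        push_cast at t1 t2
        have s1 := mul_le_mul_of_nonneg_left t1 hA3
        have s2 := mul_le_mul_of_nonneg_left t2 hA4
        have s3 : (val r.AR - val L) * d ≤ (val r.AR - val L) * (2 * A) :=
          mul_le_mul_of_nonneg_left hd2 (by linarith)
        nlinarith
    obtain ⟨q, hq, hf⟩ := stackOK_sound RC (fun q hq => (hP q hq).hμ1) hLR (by linarith) hA.1 hA.2 htop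
      r.stack r.dB h10 hdB.le
    have PR := hP q hq
    have hμ2 : 2 * (ε * (1 - ε)) ≤ val q.1 := by
      have := eps_mono hε0.le hε.2 G.hehi
      linarith [PR.hμ]
    have hpl := plane_of_sep2 hε0 hε2 hμ2 (PR.hsep ε hε)
    exact close_of_fcell hpl PR.hμ1 (val_nonneg _) (by linarith [PR.hδ]) hH hd0.le G.hξhi hmaj hf

/-- The reduction to `a₂ ≤ a₁` and `(a₁+a₂)/2 ≤ 1/2`. -/
lemma close_norm {ε κ : ℝ}
    (h : ∀ A d, 0 ≤ d → d ≤ 2 * A → A ≤ 1 / 2 → CloseAt ε κ (A + d / 2) (A - d / 2)) :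
    ∀ a₁ ∈ Set.Icc (0 : ℝ) 1, ∀ a₂ ∈ Set.Icc (0 : ℝ) 1, CloseAt ε κ a₁ a₂ := by
  have main : ∀ a₁ ∈ Set.Icc (0 : ℝ) 1, ∀ a₂ ∈ Set.Icc (0 : ℝ) 1, a₂ ≤ a₁ → CloseAt ε κ a₁ a₂ := by
    intro a₁ h1 a₂ h2 h12
    by_cases hA : (a₁ + a₂) / 2 ≤ 1 / 2
    · have := h ((a₁ + a₂) / 2) (a₁ - a₂) (by linarith) (by linarith [h2.1]) hA
      rwa [show (a₁ + a₂) / 2 + (a₁ - a₂) / 2 = a₁ by ring,
        show (a₁ + a₂) / 2 - (a₁ - a₂) / 2 = a₂ by ring] at this
    · rw [not_le] at hA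
      have := h (1 - (a₁ + a₂) / 2) (a₁ - a₂) (by linarith) (by linarith [h1.2]) (by linarith)
      rw [show 1 - (a₁ + a₂) / 2 + (a₁ - a₂) / 2 = 1 - a₂ by ring,
        show 1 - (a₁ + a₂) / 2 - (a₁ - a₂) / 2 = 1 - a₁ by ring] at this
      have h3 := this.reflect
      rwa [show 1 - (1 - a₁) = a₁ by ring, show 1 - (1 - a₂) = a₂ by ring] at h3
  intro a₁ h1 a₂ h2
  rcases le_total a₂ a₁ with h12 | h12
  · exact main a₁ h1 a₂ h2 h12
  · exact (main a₂ h2 a₁ h1 h12).swap

/-- The closure for all means, on a block. -/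
lemma block_close {D : BlockD} (hc : checkBlock D = true) {ε : ℝ}
    (hε : ε ∈ Set.Icc (val D.elo) (val D.ehi)) :
    ∀ a₁ ∈ Set.Icc (0 : ℝ) 1, ∀ a₂ ∈ Set.Icc (0 : ℝ) 1, CloseAt ε (val D.κ) a₁ a₂ := by
  unfold checkBlock at hc
  simp only [Bool.and_eq_true] at hc
  obtain ⟨⟨⟨⟨hG, hS⟩, hPl⟩, hC⟩, hR⟩ := hc
  have G := globals_sound hG
  have hP := planes_sound G hPl
  have hε0 : 0 < ε := lt_of_lt_of_le G.helo hε.1
  have hε2 : ε ≤ 1 / 2 := hε.2.trans G.hehi
  have hH : 0 ≤ binEntropy ε := binEntropy_nonneg hε0.le (by linarith)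
  have hξ0 : 0 ≤ 1 - val D.κ * log 2 := (val_nonneg _).trans G.hξlo
  have hκ := val_nonneg D.κ
  obtain ⟨e₁, CH⟩ := corner_sound G hC ε hε
  obtain ⟨s, hs, hs1, hs2⟩ := subs_exists hS ε hε
  obtain ⟨hs3, hs4⟩ := subs_conditions hS s hs
  apply close_norm
  intro A d hd0 hd2 hA2
  have hb1 : A + d / 2 ≤ 1 := by linarith
  rcases eq_or_lt_of_le hd0 with hd | hd
  · -- d = 0
    rw [← hd]
    right
    simp only [zero_div, add_zero, sub_zero]
    rw [show (A + A) / 2 = A by ring]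
    have hJ : JJ A A = 0 := by
      unfold JJ
      rw [show (A + A) / 2 = A by ring]
      ring
    rw [hJ]
    apply le_of_eq
    ring
  have hA0 : 0 < A := by linarith
  have ha₁ : A + d / 2 ∈ Set.Icc (0 : ℝ) 1 := ⟨by linarith, hb1⟩
  have ha₂ : A - d / 2 ∈ Set.Icc (0 : ℝ) 1 := ⟨by linarith, by linarith⟩
  have hdiff : |A + d / 2 - (A - d / 2)| = d := by
    rw [show A + d / 2 - (A - d / 2) = d by ring, abs_of_pos hd]
  by_cases hd1 : d < 1
  swap
  · -- d = 1
    have hd3 : d = 1 := by linarith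
    have hplane : Plane ε 1 (binEntropy ε * 2) := by
      intro u w hu hw
      have := SS_ge_abs hε0.le (by linarith) hu hw
      linarith
    apply closeAt_of_plane hplane (le_refl _) (by norm_num) hH
    rw [hdiff, hd3]
    have := LK_le_one (a := (A + d / 2 + (A - d / 2)) / 2) hκ hξ0
    rw [hd3] at this
    linarith
  by_cases hdx : 1 - val D.x₀ ≤ d
  · apply corner_close CH ha₁ ha₂
    · rw [hdiff]
      exact hdx
    · rw [hdiff]
      exact hd1
  rw [not_le] at hdx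
  by_cases hAA : A ≤ val D.A₀
  · -- the first method
    have hφ : (A + d / 2 + (A - d / 2)) / 2 * (1 - (A + d / 2 + (A - d / 2)) / 2) ≤ val D.v₀ := by
      rw [show (A + d / 2 + (A - d / 2)) / 2 = A by ring]
      exact (eps_mono hA0.le hAA G.hA₀2).trans G.hv₀
    have hsize : binEntropy ε * (val D.κ + 8 * val D.Ξhi * val D.v₀) ≤ 4 * (ε * (1 - ε)) := by
      have h0 : 0 ≤ val D.κ + 8 * val D.Ξhi * val D.v₀ := by
        have := val_nonneg D.Ξhi
        have := val_nonneg D.v₀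
        positivity
      have := mul_le_mul_of_nonneg_right hs1 h0
      linarith
    exact close_A hε0.le (by linarith) ha₁ ha₂ hφ G.hξhi hsize (val_nonneg _)
  rw [not_le] at hAA
  -- the rows
  unfold checkRows at hR
  simp only [Bool.and_eq_true, Bool.not_eq_true'] at hR
  obtain ⟨⟨hne, hchain⟩, hend⟩ := hR
  have hl : D.rows ≠ [] := by
    intro h0
    rw [h0] at hne
    simp at hne
  have hend' := nle_sound hend
  rw [val_half] at hend'
  exact chain_cover (right := Row.AR)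
    (P := fun A => ∀ d, 0 < d → d ≤ 2 * A → d ≤ 1 - val D.x₀ →
      CloseAt ε (val D.κ) (A + d / 2) (A - d / 2))
    (fun L x hx y hy => rowOK_sound G hS hP hx hε y hy) D.rows D.A₀ hl hchain
    ⟨hAA.le, hA2.trans hend'⟩ d hd hd2 hdx.le

/-- The base of the induction holds for all `κ`. -/
lemma base_LK {ε κ : ℝ} (h0 : 0 ≤ ε) (h1 : ε ≤ 1) (hκ : 0 ≤ κ) (hξ : 0 ≤ 1 - κ * log 2)
    {u : ℝ} (hu : u ∈ Set.Icc (0 : ℝ) 1) : binEntropy ε * LK κ u ≤ binEntropy u := by
  have hl : 0 < log 2 := log_pos (by norm_num)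
  have hH : binEntropy ε ≤ log 2 := binEntropy_le_log_two
  have hL0 := LK_nonneg hκ hξ hu.1 hu.2
  have hg := entropy_ge_four hu.1 hu.2
  have h3 : log 2 * LK κ u ≤ binEntropy u := by
    unfold LK
    have h4 := mul_le_mul_of_nonneg_left hg hξ
    nlinarith
  exact (mul_le_mul_of_nonneg_right hH hL0).trans h3

/-- The theorem on a block. -/
theorem block_sound {D : BlockD} (hc : checkBlock D = true) {ε : ℝ}
    (hε : ε ∈ Set.Icc (val D.elo) (val D.ehi)) {n : ℕ} (f : Cube n → Bool) :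
    mutualInfo ε f ≤ 1 - h2 ε := by
  have hcl := block_close hc hε
  unfold checkBlock at hc
  simp only [Bool.and_eq_true] at hc
  obtain ⟨⟨⟨⟨hG, hS⟩, _⟩, _⟩, _⟩ := hc
  have G := globals_sound hG
  have hε0 : 0 < ε := lt_of_lt_of_le G.helo hε.1
  have hε2 : ε ≤ 1 / 2 := hε.2.trans G.hehi
  have hξ0 : 0 ≤ 1 - val D.κ * log 2 := (val_nonneg _).trans G.hξlo
  have hκ := val_nonneg D.κ
  have hH : 0 ≤ binEntropy ε := binEntropy_nonneg hε0.le (by linarith)
  obtain ⟨s, hs, hs1, _⟩ := subs_exists hS ε hε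
  obtain ⟨hs3, _⟩ := subs_conditions hS s hs
  have hsize : binEntropy ε * (val D.κ + 2 * (1 - val D.κ * log 2)) ≤ 1 := by
    have t1 : binEntropy ε * (val D.κ + 2 * (1 - val D.κ * log 2))
        ≤ binEntropy ε * (val D.κ + 2 * val D.Ξhi) :=
      mul_le_mul_of_nonneg_left (by linarith [G.hξhi]) hH
    have t2 : binEntropy ε * (val D.κ + 2 * val D.Ξhi) ≤ val s.2.1 * (val D.κ + 2 * val D.Ξhi) :=
      mul_le_mul_of_nonneg_right hs1 (by
        have := val_nonneg D.Ξhi
        positivity)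
    linarith
  exact mutual_of_envelope hε0 hε2 hsize hξ0
    (fun g hg => envelope_general hε0 hε2 (fun u hu => base_LK hε0.le (by linarith) hκ hξ0 hu) hcl g hg) f

end Vale.Agent.P322
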