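import Vale.Agent.P322.W.Data.B00
import Vale.Agent.P322.W.Data.B01
import Vale.Agent.P322.W.Data.B02
import Vale.Agent.P322.W.Data.B03
import Vale.Agent.P322.W.Data.B04
import Vale.Agent.P322.W.Data.B05
import Vale.Agent.P322.W.Data.B06
import Vale.Agent.P322.W.Data.B07
import Vale.Agent.P322.W.Data.B08
import Vale.Agent.P322.W.Data.B09

/-!
The exact inequality on a wide range of noise levels, from the certified blocks.
-/

namespace Vale.Agent.P322

open Real

lemma val_pair (a b : ℕ) : val (a, b) = (a : ℝ) / ((b : ℝ) + 1) := rfl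

/-- The exact inequality from the checked blocks. -/
theorem exact_wide {ε : ℝ} (h0 : 0 ≤ ε) (h1 : ε ≤ 45 / 1000) {n : ℕ} (f : Cube n → Bool) :
    mutualInfo ε f ≤ 1 - h2 ε := by
  by_cases hs : ε ≤ 1 / 2 ^ 60
  · exact exact_low_noise_all h0 hs f
  rw [not_le] at hs
  by_cases b00 : ε ≤ 1 / 100000000000000
  · refine block_sound blockB00_ok (ε := ε) ⟨?_, ?_⟩ f
    · show val (1, 1152921504606846975) ≤ ε
      rw [val_pair]
      norm_num at hs ⊢
      linarith
    · show ε ≤ val (1, 99999999999999)
      rw [val_pair]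
      norm_num at b00 ⊢
      linarith
  rw [not_le] at b00
  by_cases b01 : ε ≤ 1 / 10000000000
  · refine block_sound blockB01_ok (ε := ε) ⟨?_, ?_⟩ f
    · show val (1, 99999999999999) ≤ ε
      rw [val_pair]
      norm_num at b00 ⊢
      linarith
    · show ε ≤ val (1, 9999999999)
      rw [val_pair]
      norm_num at b01 ⊢
      linarith
  rw [not_le] at b01
  by_cases b02 : ε ≤ 1 / 10000000
  · refine block_sound blockB02_ok (ε := ε) ⟨?_, ?_⟩ f
    · show val (1, 9999999999) ≤ ε
      rw [val_pair]
      norm_num at b01 ⊢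
      linarith
    · show ε ≤ val (1, 9999999)
      rw [val_pair]
      norm_num at b02 ⊢
      linarith
  rw [not_le] at b02
  by_cases b03 : ε ≤ 1 / 100000
  · refine block_sound blockB03_ok (ε := ε) ⟨?_, ?_⟩ f
    · show val (1, 9999999) ≤ ε
      rw [val_pair]
      norm_num at b02 ⊢
      linarith
    · show ε ≤ val (1, 99999)
      rw [val_pair]
      norm_num at b03 ⊢
      linarith
  rw [not_le] at b03
  by_cases b04 : ε ≤ 1 / 10000
  · refine block_sound blockB04_ok (ε := ε) ⟨?_, ?_⟩ f
    · show val (1, 99999) ≤ ε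
      rw [val_pair]
      norm_num at b03 ⊢
      linarith
    · show ε ≤ val (1, 9999)
      rw [val_pair]
      norm_num at b04 ⊢
      linarith
  rw [not_le] at b04
  by_cases b05 : ε ≤ 1 / 1000
  · refine block_sound blockB05_ok (ε := ε) ⟨?_, ?_⟩ f
    · show val (1, 9999) ≤ ε
      rw [val_pair]
      norm_num at b04 ⊢
      linarith
    · show ε ≤ val (1, 999)
      rw [val_pair]
      norm_num at b05 ⊢
      linarith
  rw [not_le] at b05
  by_cases b06 : ε ≤ 5 / 1000
  · refine block_sound blockB06_ok (ε := ε) ⟨?_, ?_⟩ f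
    · show val (1, 999) ≤ ε
      rw [val_pair]
      norm_num at b05 ⊢
      linarith
    · show ε ≤ val (5, 999)
      rw [val_pair]
      norm_num at b06 ⊢
      linarith
  rw [not_le] at b06
  by_cases b07 : ε ≤ 15 / 1000
  · refine block_sound blockB07_ok (ε := ε) ⟨?_, ?_⟩ f
    · show val (5, 999) ≤ ε
      rw [val_pair]
      norm_num at b06 ⊢
      linarith
    · show ε ≤ val (15, 999)
      rw [val_pair]
      norm_num at b07 ⊢
      linarith
  rw [not_le] at b07
  by_cases b08 : ε ≤ 3 / 100
  · refine block_sound blockB08_ok (ε := ε) ⟨?_, ?_⟩ f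
    · show val (15, 999) ≤ ε
      rw [val_pair]
      norm_num at b07 ⊢
      linarith
    · show ε ≤ val (3, 99)
      rw [val_pair]
      norm_num at b08 ⊢
      linarith
  rw [not_le] at b08
  by_cases b09 : ε ≤ 45 / 1000
  · refine block_sound blockB09_ok (ε := ε) ⟨?_, ?_⟩ f
    · show val (3, 99) ≤ ε
      rw [val_pair]
      norm_num at b08 ⊢
      linarith
    · show ε ≤ val (45, 999)
      rw [val_pair]
      norm_num at b09 ⊢
      linarith
  rw [not_le] at b09
  exact absurd h1 (not_le.mpr (by norm_num at b09 ⊢; linarith))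

end Vale.Agent.P322
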