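import Vale.Agent.P322.Midpoint

/-!
Certified rational bounds for logarithms and the binary entropy, computable by the kernel.
-/

namespace Vale.Agent.P322

open Real

/-- The scale of the fixed point computations, `2 ^ 96`. -/
def SC : ℕ := 79228162514264337593543950336

/-- Horner evaluation of `∑ t^k/(2k+1)` in fixed point. -/
def hornerN (s2 : ℕ) : ℕ → ℕ → ℕ
  | 0, acc => acc
  | n + 1, acc => hornerN s2 n (SC / (2 * n + 1) + acc * s2 / SC)

/-- The final product of the series. -/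
def serAux (s : ℕ) : ℕ := 2 * hornerN (s * s / SC) 8 0 * s / SC

/-- A lower bound for `SC * log (a/b)`, `b ≤ a`. -/
def serN (a b : ℕ) : ℕ := serAux ((a - b) * SC / (a + b))

lemma SC_pos : (0 : ℝ) < (SC : ℝ) := by
  unfold SC
  norm_num

lemma natDiv_cast_le (a b : ℕ) : ((a / b : ℕ) : ℝ) ≤ (a : ℝ) / b := Nat.cast_div_le

/-- The invariant of the Horner scheme. -/
lemma hornerN_le (s2 : ℕ) (t : ℝ) (ht : (s2 : ℝ) / SC ≤ t) (n acc : ℕ) (ht0 : 0 ≤ t) :
    ((hornerN s2 n acc : ℕ) : ℝ) / SC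
      ≤ ∑ k ∈ Finset.range n, t ^ k / (2 * k + 1) + t ^ n * ((acc : ℝ) / SC) := by
  have hS := SC_pos
  induction n generalizing acc with
  | zero =>
    simp [hornerN]
  | succ n ih =>
    have h1 := ih (SC / (2 * n + 1) + acc * s2 / SC)
    have h2 : (((SC / (2 * n + 1) + acc * s2 / SC : ℕ)) : ℝ) / SC
        ≤ 1 / (2 * (n : ℝ) + 1) + t * ((acc : ℝ) / SC) := by
      push_cast
      have h3 : ((SC / (2 * n + 1) : ℕ) : ℝ) ≤ (SC : ℝ) / ((2 * n + 1 : ℕ) : ℝ) := Nat.cast_div_le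
      have h4 : ((acc * s2 / SC : ℕ) : ℝ) ≤ ((acc * s2 : ℕ) : ℝ) / (SC : ℝ) := Nat.cast_div_le
      push_cast at h3 h4
      have h5 : (acc : ℝ) * s2 / SC ≤ (acc : ℝ) * t := by
        have : (acc : ℝ) * (s2 / SC) ≤ acc * t :=
          mul_le_mul_of_nonneg_left ht (Nat.cast_nonneg _)
        calc (acc : ℝ) * s2 / SC = (acc : ℝ) * (s2 / SC) := by ring
          _ ≤ _ := this
      rw [add_div]
      have h6 : ((SC / (2 * n + 1) : ℕ) : ℝ) / SC ≤ 1 / (2 * (n : ℝ) + 1) := by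
        rw [div_le_iff₀ hS]
        calc ((SC / (2 * n + 1) : ℕ) : ℝ) ≤ (SC : ℝ) / (2 * (n : ℝ) + 1) := h3
          _ = 1 / (2 * (n : ℝ) + 1) * SC := by ring
      have h7 : ((acc * s2 / SC : ℕ) : ℝ) / SC ≤ t * ((acc : ℝ) / SC) := by
        rw [div_le_iff₀ hS]
        have e : t * ((acc : ℝ) / SC) * SC = acc * t := by
          field_simp
        rw [e]
        exact h4.trans h5
      linarith
    have hpow : 0 ≤ t ^ n := pow_nonneg ht0 n
    have h8 := mul_le_mul_of_nonneg_left h2 hpow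
    show ((hornerN s2 n (SC / (2 * n + 1) + acc * s2 / SC) : ℕ) : ℝ) / SC ≤ _
    rw [Finset.sum_range_succ]
    have e : t ^ (n + 1) * ((acc : ℝ) / SC) = t ^ n * (t * ((acc : ℝ) / SC)) := by ring
    have e2 : t ^ n * (1 / (2 * (n : ℝ) + 1) + t * ((acc : ℝ) / SC))
        = t ^ n / (2 * (n : ℝ) + 1) + t ^ n * (t * ((acc : ℝ) / SC)) := by ring
    rw [e2] at h8
    rw [e]
    linarith

/-- The series lower bound for the logarithm. -/
lemma serAux_le {s : ℕ} {x : ℝ} (hx0 : 0 ≤ x) (hx1 : x < 1) (hs : (s : ℝ) / SC ≤ x) :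
    ((serAux s : ℕ) : ℝ) / SC ≤ log (1 + x) - log (1 - x) := by
  have hS := SC_pos
  have hs0 : (0 : ℝ) ≤ (s : ℝ) / SC := by positivity
  have hs2 : ((s * s / SC : ℕ) : ℝ) / SC ≤ x ^ 2 := by
    have h1 : ((s * s / SC : ℕ) : ℝ) ≤ ((s * s : ℕ) : ℝ) / (SC : ℝ) := Nat.cast_div_le
    push_cast at h1
    rw [div_le_iff₀ hS]
    have h2 : ((s : ℝ) / SC) ^ 2 ≤ x ^ 2 := pow_le_pow_left₀ hs0 hs 2
    have e : (s : ℝ) * s / SC = ((s : ℝ) / SC) ^ 2 * SC := by
      field_simp
    rw [e] at h1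
    have := mul_le_mul_of_nonneg_right h2 hS.le
    linarith
  have hH := hornerN_le (s * s / SC) (x ^ 2) hs2 8 0 (sq_nonneg x)
  simp only [Nat.cast_zero, zero_div, mul_zero, add_zero] at hH
  have hsum := Real.hasSum_log_sub_log_of_abs_lt_one (x := x) (by
    rw [abs_of_nonneg hx0]
    exact hx1)
  have hle : ∑ k ∈ Finset.range 8, (2 : ℝ) * (1 / (2 * k + 1)) * x ^ (2 * k + 1)
      ≤ log (1 + x) - log (1 - x) := by
    apply sum_le_hasSum _ _ hsum
    intro k _
    positivity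
  have e : ∑ k ∈ Finset.range 8, (2 : ℝ) * (1 / (2 * k + 1)) * x ^ (2 * k + 1)
      = 2 * x * ∑ k ∈ Finset.range 8, (x ^ 2) ^ k / (2 * (k : ℝ) + 1) := by
    rw [Finset.mul_sum]
    apply Finset.sum_congr rfl
    intro k _
    rw [pow_succ, pow_mul]
    ring
  rw [e] at hle
  have h3 : ((serAux s : ℕ) : ℝ) / SC
      ≤ 2 * x * (((hornerN (s * s / SC) 8 0 : ℕ) : ℝ) / SC) := by
    unfold serAux
    have h4 : ((2 * hornerN (s * s / SC) 8 0 * s / SC : ℕ) : ℝ)
        ≤ ((2 * hornerN (s * s / SC) 8 0 * s : ℕ) : ℝ) / (SC : ℝ) := Nat.cast_div_le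
    push_cast at h4
    rw [div_le_iff₀ hS]
    have hh0 : (0 : ℝ) ≤ ((hornerN (s * s / SC) 8 0 : ℕ) : ℝ) := Nat.cast_nonneg _
    have e2 : 2 * x * (((hornerN (s * s / SC) 8 0 : ℕ) : ℝ) / SC) * SC
        = 2 * x * ((hornerN (s * s / SC) 8 0 : ℕ) : ℝ) := by
      field_simp
    rw [e2]
    refine h4.trans ?_
    have e3 : 2 * ((hornerN (s * s / SC) 8 0 : ℕ) : ℝ) * s / SC
        = 2 * ((hornerN (s * s / SC) 8 0 : ℕ) : ℝ) * ((s : ℝ) / SC) := by ring
    rw [e3]
    have := mul_le_mul_of_nonneg_left hs (by positivity : (0 : ℝ) ≤ 2 * ((hornerN (s * s / SC) 8 0 : ℕ) : ℝ))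
    linarith
  have h5 := mul_le_mul_of_nonneg_left hH (mul_nonneg (by norm_num : (0 : ℝ) ≤ 2) hx0)
  linarith

/-- Soundness of `serN`. -/
lemma serN_le {a b : ℕ} (hb : 0 < b) (hab : b ≤ a) :
    ((serN a b : ℕ) : ℝ) / SC ≤ log ((a : ℝ) / b) := by
  have hS := SC_pos
  have hb' : (0 : ℝ) < b := by exact_mod_cast hb
  have ha' : (0 : ℝ) < a := by exact_mod_cast (lt_of_lt_of_le hb hab)
  have hab' : (b : ℝ) ≤ a := by exact_mod_cast hab
  set x : ℝ := ((a : ℝ) - b) / (a + b) with hx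
  have hx0 : 0 ≤ x := div_nonneg (by linarith) (by linarith)
  have hx1 : x < 1 := by
    rw [hx, div_lt_one (by linarith)]
    linarith
  have hs : (((a - b) * SC / (a + b) : ℕ) : ℝ) / SC ≤ x := by
    have h1 : (((a - b) * SC / (a + b) : ℕ) : ℝ) ≤ (((a - b) * SC : ℕ) : ℝ) / ((a + b : ℕ) : ℝ) :=
      Nat.cast_div_le
    rw [div_le_iff₀ hS]
    refine h1.trans ?_
    push_cast [Nat.cast_sub hab]
    rw [hx]
    apply le_of_eq
    ring
  have h := serAux_le hx0 hx1 hs
  unfold serN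
  refine h.trans (le_of_eq ?_)
  have e1 : 1 + x = 2 * a / (a + b) := by
    rw [hx]
    field_simp
    ring
  have e2 : 1 - x = 2 * b / (a + b) := by
    rw [hx]
    field_simp
    ring
  have hp : (a : ℝ) + b ≠ 0 := by positivity
  rw [e1, e2, log_div (by positivity) hp, log_div (by positivity) hp,
    log_mul (by norm_num) ha'.ne', log_mul (by norm_num) hb'.ne', log_div ha'.ne' hb'.ne']
  ring

/-- The lower bound for `log 2`, scaled. -/
def L2lo : ℕ := 54916777447112484131812276659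

/-- The upper bound for `log 2`, scaled. -/
def L2hi : ℕ := 54916777486726565388944445457

lemma L2lo_le : ((L2lo : ℕ) : ℝ) / SC ≤ log 2 := by
  have := log_two_gt_d9
  have h : ((L2lo : ℕ) : ℝ) / SC ≤ 0.6931471803 := by
    unfold L2lo SC
    norm_num
  linarith

lemma le_L2hi : log 2 ≤ ((L2hi : ℕ) : ℝ) / SC := by
  have := log_two_lt_d9
  have h : (0.6931471808 : ℝ) ≤ ((L2hi : ℕ) : ℝ) / SC := by
    unfold L2hi SC
    norm_num
  linarith

/-- A lower bound for `SC * log (a/b)`. -/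
def logLoN (a b : ℕ) : ℕ :=
  if b * 2 ^ (Nat.log2 (a / b)) ≤ a then
    Nat.log2 (a / b) * L2lo + serN a (b * 2 ^ (Nat.log2 (a / b)))
  else 0

/-- The simple upper bound `log x ≤ (x - 1/x)/2`, scaled. -/
def logHiSimple (a b : ℕ) : ℕ := (a * a - b * b) * SC / (2 * a * b) + 1

/-- The upper bound through the powers of two. -/
def logHiPow (a b k : ℕ) : ℕ :=
  if a ≤ b * 2 ^ k ∧ serN (b * 2 ^ k) a ≤ k * L2hi then
    k * L2hi - serN (b * 2 ^ k) a
  else logHiSimple a b

/-- An upper bound for `SC * log (a/b)`. -/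
def logHiN (a b : ℕ) : ℕ := min (logHiPow a b (Nat.log2 (a / b) + 1)) (logHiSimple a b)

lemma logLoN_le {a b : ℕ} (hb : 0 < b) (hab : b ≤ a) :
    ((logLoN a b : ℕ) : ℝ) / SC ≤ log ((a : ℝ) / b) := by
  have hS := SC_pos
  have hb' : (0 : ℝ) < b := by exact_mod_cast hb
  have ha' : (0 : ℝ) < a := by exact_mod_cast (lt_of_lt_of_le hb hab)
  have hab' : (b : ℝ) ≤ a := by exact_mod_cast hab
  have hlog0 : 0 ≤ log ((a : ℝ) / b) := log_nonneg (by
    rw [le_div_iff₀ hb']
    linarith)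
  unfold logLoN
  split_ifs with h
  · set k := Nat.log2 (a / b) with hk
    have hb2 : 0 < b * 2 ^ k := by positivity
    have h1 := serN_le hb2 h
    have hk2 : (0 : ℝ) < 2 ^ k := by positivity
    have e : log ((a : ℝ) / b) = k * log 2 + log ((a : ℝ) / ((b * 2 ^ k : ℕ) : ℝ)) := by
      push_cast
      rw [log_div ha'.ne' hb'.ne', log_div ha'.ne' (by positivity), log_mul hb'.ne' hk2.ne', log_pow]
      ring
    rw [e]
    push_cast
    rw [add_div]
    have h2 : (k : ℝ) * ((L2lo : ℕ) : ℝ) / SC ≤ k * log 2 := by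
      have := mul_le_mul_of_nonneg_left L2lo_le (Nat.cast_nonneg k)
      calc (k : ℝ) * ((L2lo : ℕ) : ℝ) / SC = (k : ℝ) * (((L2lo : ℕ) : ℝ) / SC) := by ring
        _ ≤ _ := this
    have h3 : log ((a : ℝ) / ((b * 2 ^ k : ℕ) : ℝ)) = log ((a : ℝ) / ((b : ℝ) * 2 ^ k)) := by
      push_cast
      rfl
    rw [← h3]
    linarith
  · simpa using hlog0

lemma div_le_natDiv_add_one {n b : ℕ} (hb : 0 < b) : (n : ℝ) / b ≤ ((n / b : ℕ) : ℝ) + 1 := by
  have hb' : (0 : ℝ) < b := by exact_mod_cast hb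
  have h1 := Nat.div_add_mod n b
  have h2 := Nat.mod_lt n hb
  have h3 : n ≤ b * (n / b) + b := by omega
  have h4 : (n : ℝ) ≤ b * ((n / b : ℕ) : ℝ) + b := by exact_mod_cast h3
  rw [div_le_iff₀ hb']
  linarith

/-- `log x ≤ (x - 1/x)/2` for `x ≥ 1`. -/
lemma log_le_half_aux {x : ℝ} (hx : 1 ≤ x) : log x ≤ (x - 1 / x) / 2 := by
  have hx0 : 0 < x := by linarith
  have hz0 : 0 ≤ (x - 1) / (x + 1) := div_nonneg (by linarith) (by linarith)
  have hz1 : (x - 1) / (x + 1) < 1 := by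
    rw [div_lt_one (by linarith)]
    linarith
  have h := log_ratio_le hz0 hz1
  have e1 : 1 + (x - 1) / (x + 1) = 2 * x / (x + 1) := by
    field_simp
    ring
  have e2 : 1 - (x - 1) / (x + 1) = 2 / (x + 1) := by
    field_simp
    ring
  have hp : (0 : ℝ) < x + 1 := by linarith
  rw [e1, e2, log_div (by positivity) hp.ne', log_div (by norm_num) hp.ne',
    log_mul (by norm_num) hx0.ne'] at h
  have e3 : 2 * ((x - 1) / (x + 1)) / (1 - ((x - 1) / (x + 1)) ^ 2) = (x - 1 / x) / 2 := by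
    have h4 : 1 - ((x - 1) / (x + 1)) ^ 2 = 4 * x / (x + 1) ^ 2 := by
      field_simp
      ring
    rw [h4]
    field_simp
    ring
  rw [e3] at h
  linarith

lemma le_logHiSimple {a b : ℕ} (hb : 0 < b) (hab : b ≤ a) :
    log ((a : ℝ) / b) ≤ ((logHiSimple a b : ℕ) : ℝ) / SC := by
  have hS := SC_pos
  have hb' : (0 : ℝ) < b := by exact_mod_cast hb
  have ha0 : 0 < a := lt_of_lt_of_le hb hab
  have ha' : (0 : ℝ) < a := by exact_mod_cast ha0
  have hab' : (b : ℝ) ≤ a := by exact_mod_cast hab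
  have h1 := log_le_half_aux (show 1 ≤ (a : ℝ) / b by
    rw [le_div_iff₀ hb']
    linarith)
  have hsq : b * b ≤ a * a := Nat.mul_le_mul hab hab
  have hp : 0 < 2 * a * b := by positivity
  unfold logHiSimple
  rw [le_div_iff₀ hS]
  have h2 : (((a * a - b * b) * SC : ℕ) : ℝ) / ((2 * a * b : ℕ) : ℝ)
      ≤ (((a * a - b * b) * SC / (2 * a * b) : ℕ) : ℝ) + 1 :=
    div_le_natDiv_add_one hp
  push_cast [Nat.cast_sub hsq] at h2 ⊢
  have h3 : (((a : ℝ) / b - 1 / ((a : ℝ) / b)) / 2) * SC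
      = ((a : ℝ) * a - b * b) * SC / (2 * a * b) := by
    field_simp
  have := mul_le_mul_of_nonneg_right h1 hS.le
  rw [h3] at this
  linarith

lemma le_logHiPow {a b k : ℕ} (hb : 0 < b) (hab : b ≤ a) :
    log ((a : ℝ) / b) ≤ ((logHiPow a b k : ℕ) : ℝ) / SC := by
  have hS := SC_pos
  have hb' : (0 : ℝ) < b := by exact_mod_cast hb
  have ha' : (0 : ℝ) < a := by exact_mod_cast (lt_of_lt_of_le hb hab)
  unfold logHiPow
  split_ifs with h
  · obtain ⟨h1, h2⟩ := h
    have ha0 : 0 < a := lt_of_lt_of_le hb hab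
    have h3 := serN_le ha0 h1
    have hk2 : (0 : ℝ) < 2 ^ k := by positivity
    have e : log ((a : ℝ) / b) = k * log 2 - log (((b * 2 ^ k : ℕ) : ℝ) / (a : ℝ)) := by
      push_cast
      rw [log_div ha'.ne' hb'.ne', log_div (by positivity) ha'.ne', log_mul hb'.ne' hk2.ne', log_pow]
      ring
    rw [e]
    rw [Nat.cast_sub h2]
    push_cast at h3 ⊢
    rw [sub_div]
    have h4 : (k : ℝ) * log 2 ≤ (k : ℝ) * ((L2hi : ℕ) : ℝ) / SC := by
      have := mul_le_mul_of_nonneg_left le_L2hi (Nat.cast_nonneg k)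
      calc (k : ℝ) * log 2 ≤ (k : ℝ) * (((L2hi : ℕ) : ℝ) / SC) := this
        _ = _ := by ring
    linarith
  · exact le_logHiSimple hb hab

lemma le_logHiN {a b : ℕ} (hb : 0 < b) (hab : b ≤ a) :
    log ((a : ℝ) / b) ≤ ((logHiN a b : ℕ) : ℝ) / SC := by
  unfold logHiN
  rcases le_total (logHiPow a b (Nat.log2 (a / b) + 1)) (logHiSimple a b) with h | h
  · rw [min_eq_left h]
    exact le_logHiPow hb hab
  · rw [min_eq_right h]
    exact le_logHiSimple hb hab

/-! ### Unnormalised fractions of natural numbers -/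

/-- A fraction `a.1 / (a.2 + 1)`. -/
abbrev NF := ℕ × ℕ

/-- The value of a fraction. -/
noncomputable def val (a : NF) : ℝ := (a.1 : ℝ) / ((a.2 : ℝ) + 1)

/-- Sum of fractions. -/
def nadd (a b : NF) : NF := (a.1 * (b.2 + 1) + b.1 * (a.2 + 1), a.2 * b.2 + a.2 + b.2)

/-- Product of fractions. -/
def nmul (a b : NF) : NF := (a.1 * b.1, a.2 * b.2 + a.2 + b.2)

/-- Difference of fractions, for `b ≤ a`. -/
def nsub (a b : NF) : NF := (a.1 * (b.2 + 1) - b.1 * (a.2 + 1), a.2 * b.2 + a.2 + b.2)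

/-- Inverse of a positive fraction. -/
def ninv (a : NF) : NF := (a.2 + 1, a.1 - 1)

/-- Comparison of fractions. -/
def nle (a b : NF) : Bool := Nat.ble (a.1 * (b.2 + 1)) (b.1 * (a.2 + 1))

/-- Strict comparison of fractions. -/
def nlt (a b : NF) : Bool := Nat.blt (a.1 * (b.2 + 1)) (b.1 * (a.2 + 1))

/-- Positivity of a fraction. -/
def npos (a : NF) : Bool := Nat.blt 0 a.1

lemma val_nonneg (a : NF) : 0 ≤ val a := by
  unfold val
  positivity

lemma val_den_pos (a : NF) : (0 : ℝ) < (a.2 : ℝ) + 1 := by positivity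

lemma val_add (a b : NF) : val (nadd a b) = val a + val b := by
  unfold val nadd
  push_cast
  have h1 := val_den_pos a
  have h2 := val_den_pos b
  have e : ((a.2 : ℝ) * b.2 + a.2 + b.2 + 1) = (a.2 + 1) * (b.2 + 1) := by ring
  rw [e]
  field_simp

lemma val_mul (a b : NF) : val (nmul a b) = val a * val b := by
  unfold val nmul
  push_cast
  have h1 := val_den_pos a
  have h2 := val_den_pos b
  have e : ((a.2 : ℝ) * b.2 + a.2 + b.2 + 1) = (a.2 + 1) * (b.2 + 1) := by ring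
  rw [e]
  field_simp

lemma nle_sound {a b : NF} (h : nle a b = true) : val a ≤ val b := by
  unfold nle at h
  have h0 := Nat.le_of_ble_eq_true h
  have h1 : (a.1 : ℝ) * ((b.2 : ℝ) + 1) ≤ (b.1 : ℝ) * ((a.2 : ℝ) + 1) := by exact_mod_cast h0
  unfold val
  rw [div_le_div_iff₀ (val_den_pos a) (val_den_pos b)]
  exact h1

lemma nlt_sound {a b : NF} (h : nlt a b = true) : val a < val b := by
  unfold nlt at h
  have h0 : a.1 * (b.2 + 1) < b.1 * (a.2 + 1) := by
    simpa [Nat.blt] using h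
  have h1 : (a.1 : ℝ) * ((b.2 : ℝ) + 1) < (b.1 : ℝ) * ((a.2 : ℝ) + 1) := by exact_mod_cast h0
  unfold val
  rw [div_lt_div_iff₀ (val_den_pos a) (val_den_pos b)]
  exact h1

lemma npos_pos {a : NF} (h : npos a = true) : 0 < a.1 := by
  unfold npos at h
  have h1 : 1 ≤ a.1 := by simpa [Nat.blt] using h
  omega

lemma npos_sound {a : NF} (h : npos a = true) : 0 < val a := by
  have h0 : 0 < a.1 := npos_pos h
  have h1 : (0 : ℝ) < a.1 := by exact_mod_cast h0
  unfold val
  have := val_den_pos a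
  positivity

lemma val_sub {a b : NF} (h : nle b a = true) : val (nsub a b) = val a - val b := by
  unfold nle at h
  have h0 := Nat.le_of_ble_eq_true h
  unfold val nsub
  rw [Nat.cast_sub h0]
  push_cast
  have h1 := val_den_pos a
  have h2 := val_den_pos b
  have e : ((a.2 : ℝ) * b.2 + a.2 + b.2 + 1) = (a.2 + 1) * (b.2 + 1) := by ring
  rw [e]
  field_simp

lemma val_inv {a : NF} (h : npos a = true) : val (ninv a) = (val a)⁻¹ := by
  have h0 : 0 < a.1 := npos_pos h
  have h1 : (0 : ℝ) < a.1 := by exact_mod_cast h0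
  have h2 := val_den_pos a
  unfold val ninv
  rw [Nat.cast_sub h0]
  push_cast
  rw [inv_div]
  ring_nf

/-- The fraction `1`. -/
def none1 : NF := (1, 0)

lemma val_one : val none1 = 1 := by
  unfold val none1
  norm_num

lemma SC_cast : (((SC - 1 : ℕ) : ℝ)) + 1 = (SC : ℝ) := by
  have : 1 ≤ SC := by
    unfold SC
    norm_num
  rw [Nat.cast_sub this]
  push_cast
  ring

/-- Lower bound for the logarithm of a fraction at least one. -/
def logLoF (x : NF) : NF := (logLoN x.1 (x.2 + 1), SC - 1)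

/-- Upper bound for the logarithm of a fraction at least one. -/
def logHiF (x : NF) : NF := (logHiN x.1 (x.2 + 1), SC - 1)

lemma logLoF_le {x : NF} (h : nle none1 x = true) : val (logLoF x) ≤ log (val x) := by
  unfold nle none1 at h
  have h0 := Nat.le_of_ble_eq_true h
  simp only [one_mul, zero_add, mul_one] at h0
  have := logLoN_le (a := x.1) (b := x.2 + 1) (by omega) h0
  unfold val logLoF
  rw [SC_cast]
  push_cast at this
  exact this

lemma le_logHiF {x : NF} (h : nle none1 x = true) : log (val x) ≤ val (logHiF x) := by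
  unfold nle none1 at h
  have h0 := Nat.le_of_ble_eq_true h
  simp only [one_mul, zero_add, mul_one] at h0
  have := le_logHiN (a := x.1) (b := x.2 + 1) (by omega) h0
  unfold val logHiF
  rw [SC_cast]
  push_cast at this
  exact this

lemma denSC_cast (q : ℕ) (hq : 0 < q) : (((q * SC - 1 : ℕ) : ℝ)) + 1 = (q : ℝ) * SC := by
  have : 1 ≤ q * SC := by
    have h : 0 < SC := by
      unfold SC
      norm_num
    exact Nat.succ_le_of_lt (Nat.mul_pos hq h)
  rw [Nat.cast_sub this]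
  push_cast
  ring

/-- Lower bound for the entropy at a fraction at most one. -/
def entLoF (x : NF) : NF :=
  (x.1 * logLoN (x.2 + 1) x.1 + (x.2 + 1 - x.1) * logLoN (x.2 + 1) (x.2 + 1 - x.1),
    (x.2 + 1) * SC - 1)

/-- Upper bound for the entropy at a fraction at most one. -/
def entHiF (x : NF) : NF :=
  (x.1 * logHiN (x.2 + 1) x.1 + (x.2 + 1 - x.1) * logHiN (x.2 + 1) (x.2 + 1 - x.1),
    (x.2 + 1) * SC - 1)

lemma entropy_frac {p q : ℕ} (hq : 0 < q) (hp : 0 < p) (hpq : p < q) :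
    binEntropy ((p : ℝ) / q) = ((p : ℝ) / q) * log ((q : ℝ) / p)
      + (((q - p : ℕ) : ℝ) / q) * log ((q : ℝ) / ((q - p : ℕ) : ℝ)) := by
  have hq' : (0 : ℝ) < q := by exact_mod_cast hq
  have hp' : (0 : ℝ) < p := by exact_mod_cast hp
  have hpq' : (p : ℝ) < q := by exact_mod_cast hpq
  rw [Nat.cast_sub hpq.le]
  have e1 : 1 - (p : ℝ) / q = ((q : ℝ) - p) / q := by
    field_simp
  unfold binEntropy
  rw [e1, inv_div, inv_div]

lemma entLoF_le {x : NF} (h : x.1 ≤ x.2 + 1) : val (entLoF x) ≤ binEntropy (val x) := by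
  have hS := SC_pos
  have hq : 0 < x.2 + 1 := by omega
  have hq' : (0 : ℝ) < ((x.2 + 1 : ℕ) : ℝ) := by exact_mod_cast hq
  have hval : val x = (x.1 : ℝ) / ((x.2 + 1 : ℕ) : ℝ) := by
    unfold val
    push_cast
    rfl
  have hden : val (entLoF x) = (((x.1 : ℝ) * logLoN (x.2 + 1) x.1
      + ((x.2 + 1 - x.1 : ℕ) : ℝ) * logLoN (x.2 + 1) (x.2 + 1 - x.1)))
        / (((x.2 + 1 : ℕ) : ℝ) * SC) := by
    unfold val entLoF
    rw [denSC_cast _ hq]
    push_cast
    rfl
  rw [hden, hval]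
  generalize hq0 : x.2 + 1 = q at *
  generalize hp0 : x.1 = p at *
  rcases Nat.eq_zero_or_pos p with rfl | hp
  · have h1 := logLoN_le (a := q) (b := q) hq (le_refl _)
    rw [div_self hq'.ne', log_one] at h1
    have h2 : ((logLoN q q : ℕ) : ℝ) ≤ 0 := by
      rw [div_le_iff₀ hS] at h1
      simpa using h1
    simp only [Nat.cast_zero, zero_mul, zero_add, Nat.sub_zero, zero_div, binEntropy_zero]
    apply div_nonpos_of_nonpos_of_nonneg _ (by positivity)
    exact mul_nonpos_of_nonneg_of_nonpos hq'.le h2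
  rcases Nat.lt_or_ge p q with hpq | hpq
  · rw [entropy_frac hq hp hpq]
    have hp' : (0 : ℝ) < p := by exact_mod_cast hp
    have hqp : 0 < q - p := by omega
    have hqp' : (0 : ℝ) < ((q - p : ℕ) : ℝ) := by exact_mod_cast hqp
    have h1 := logLoN_le (a := q) (b := p) hp (by omega)
    have h2 := logLoN_le (a := q) (b := q - p) hqp (by omega)
    have t1 := mul_le_mul_of_nonneg_left h1 (show 0 ≤ (p : ℝ) / q by positivity)
    have t2 := mul_le_mul_of_nonneg_left h2 (show 0 ≤ ((q - p : ℕ) : ℝ) / q by positivity)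
    have e : ((p : ℝ) * logLoN q p + ((q - p : ℕ) : ℝ) * logLoN q (q - p)) / ((q : ℝ) * SC)
        = (p : ℝ) / q * (((logLoN q p : ℕ) : ℝ) / SC)
          + ((q - p : ℕ) : ℝ) / q * (((logLoN q (q - p) : ℕ) : ℝ) / SC) := by
      field_simp
    rw [e]
    linarith
  · have hpe : p = q := by omega
    subst hpe
    have h1 := logLoN_le (a := p) (b := p) hq (le_refl _)
    rw [div_self hq'.ne', log_one] at h1
    have h2 : ((logLoN p p : ℕ) : ℝ) ≤ 0 := by
      rw [div_le_iff₀ hS] at h1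
      simpa using h1
    simp only [Nat.sub_self, Nat.cast_zero, zero_mul, add_zero]
    rw [div_self hq'.ne', binEntropy_one]
    apply div_nonpos_of_nonpos_of_nonneg _ (by positivity)
    exact mul_nonpos_of_nonneg_of_nonpos hq'.le h2

lemma le_entHiF {x : NF} (h : x.1 ≤ x.2 + 1) : binEntropy (val x) ≤ val (entHiF x) := by
  have hS := SC_pos
  have hq : 0 < x.2 + 1 := by omega
  have hq' : (0 : ℝ) < ((x.2 + 1 : ℕ) : ℝ) := by exact_mod_cast hq
  have hval : val x = (x.1 : ℝ) / ((x.2 + 1 : ℕ) : ℝ) := by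
    unfold val
    push_cast
    rfl
  have hden : val (entHiF x) = (((x.1 : ℝ) * logHiN (x.2 + 1) x.1
      + ((x.2 + 1 - x.1 : ℕ) : ℝ) * logHiN (x.2 + 1) (x.2 + 1 - x.1)))
        / (((x.2 + 1 : ℕ) : ℝ) * SC) := by
    unfold val entHiF
    rw [denSC_cast _ hq]
    push_cast
    rfl
  rw [hden, hval]
  generalize hq0 : x.2 + 1 = q at *
  generalize hp0 : x.1 = p at *
  rcases Nat.eq_zero_or_pos p with rfl | hp
  · simp only [Nat.cast_zero, zero_div, binEntropy_zero]
    positivity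
  rcases Nat.lt_or_ge p q with hpq | hpq
  · rw [entropy_frac hq hp hpq]
    have hp' : (0 : ℝ) < p := by exact_mod_cast hp
    have hqp : 0 < q - p := by omega
    have hqp' : (0 : ℝ) < ((q - p : ℕ) : ℝ) := by exact_mod_cast hqp
    have h1 := le_logHiN (a := q) (b := p) hp (by omega)
    have h2 := le_logHiN (a := q) (b := q - p) hqp (by omega)
    have t1 := mul_le_mul_of_nonneg_left h1 (show 0 ≤ (p : ℝ) / q by positivity)
    have t2 := mul_le_mul_of_nonneg_left h2 (show 0 ≤ ((q - p : ℕ) : ℝ) / q by positivity)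
    have e : ((p : ℝ) * logHiN q p + ((q - p : ℕ) : ℝ) * logHiN q (q - p)) / ((q : ℝ) * SC)
        = (p : ℝ) / q * (((logHiN q p : ℕ) : ℝ) / SC)
          + ((q - p : ℕ) : ℝ) / q * (((logHiN q (q - p) : ℕ) : ℝ) / SC) := by
      field_simp
    rw [e]
    linarith
  · have hpe : p = q := by omega
    subst hpe
    rw [div_self hq'.ne', binEntropy_one]
    positivity

end Vale.Agent.P322
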