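import Vale.Agent.P322.W.Corner
import Vale.Agent.P322.W.Num

/-!
Reflective checks for the separation inequality, on boxes with rational corners.
-/

namespace Vale.Agent.P322

open Real

/-! ### Helpers for fractions -/

lemma nle_complete {a b : NF} (h : val a ≤ val b) : nle a b = true := by
  unfold val at h
  rw [div_le_div_iff₀ (val_den_pos a) (val_den_pos b)] at h
  have h1 : a.1 * (b.2 + 1) ≤ b.1 * (a.2 + 1) := by exact_mod_cast h
  unfold nle
  exact Nat.ble_eq_true_of_le h1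

lemma npos_complete {a : NF} (h : 0 < val a) : npos a = true := by
  unfold val at h
  have h0 : 0 < (a.1 : ℝ) := by
    by_contra hn
    have h1 : (a.1 : ℝ) = 0 := by
      have := Nat.cast_nonneg (α := ℝ) a.1
      linarith
    rw [h1] at h
    simp at h
  have h2 : 1 ≤ a.1 := by exact_mod_cast h0
  unfold npos
  simpa [Nat.blt] using h2

lemma val_sub' {a b : NF} (h : val b ≤ val a) : val (nsub a b) = val a - val b :=
  val_sub (nle_complete h)

lemma val_inv' {a : NF} (h : 0 < val a) : val (ninv a) = (val a)⁻¹ :=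
  val_inv (npos_complete h)

/-- `1 - x`. -/
def ncomp (x : NF) : NF := (x.2 + 1 - x.1, x.2)

/-- The fraction `1/2`. -/
def nhalf : NF := (1, 1)

/-- The natural number `n` as a fraction. -/
def nnat (n : ℕ) : NF := (n, 0)

/-- `1 + r`. -/
def onePlus (r : NF) : NF := (r.1 + (r.2 + 1), r.2)

/-- `1 + 1/r`. -/
def onePlusInv (r : NF) : NF := (r.1 + (r.2 + 1), r.1 - 1)

/-- `1/2 - e`. -/
def nhalfsub (e : NF) : NF := (e.2 + 1 - 2 * e.1, 2 * e.2 + 1)

lemma val_half : val nhalf = 1 / 2 := by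
  unfold val nhalf
  norm_num

lemma val_nnat (n : ℕ) : val (nnat n) = n := by
  unfold val nnat
  simp

lemma val_natle {x : NF} (h : val x ≤ 1) : x.1 ≤ x.2 + 1 := by
  unfold val at h
  rw [div_le_one (val_den_pos x)] at h
  exact_mod_cast h

lemma val_comp {x : NF} (h : val x ≤ 1) : val (ncomp x) = 1 - val x := by
  have h0 := val_natle h
  have hd := val_den_pos x
  unfold val ncomp
  simp only
  rw [Nat.cast_sub h0]
  push_cast
  field_simp

lemma val_onePlus (r : NF) : val (onePlus r) = 1 + val r := by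
  have hd := val_den_pos r
  unfold val onePlus
  simp only
  push_cast
  field_simp
  ring

lemma val_onePlusInv {r : NF} (h : 0 < val r) : val (onePlusInv r) = 1 + 1 / val r := by
  have hd := val_den_pos r
  have h0 : 0 < r.1 := npos_pos (npos_complete h)
  have h1 : (0 : ℝ) < r.1 := by exact_mod_cast h0
  unfold val onePlusInv
  simp only
  rw [Nat.cast_sub h0]
  push_cast
  rw [one_div_div, sub_add_cancel]
  field_simp

lemma val_halfsub {e : NF} (h : val e ≤ 1 / 2) : val (nhalfsub e) = 1 / 2 - val e := by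
  have hd := val_den_pos e
  have h0 : 2 * e.1 ≤ e.2 + 1 := by
    unfold val at h
    rw [div_le_iff₀ hd] at h
    have h1 : (2 : ℝ) * e.1 ≤ e.2 + 1 := by linarith
    exact_mod_cast h1
  unfold val nhalfsub
  simp only
  rw [Nat.cast_sub h0]
  push_cast
  have e1 : 2 * (e.2 : ℝ) + 1 + 1 = 2 * (e.2 + 1) := by ring
  rw [e1]
  field_simp

lemma le_logHiF' {x : NF} (h : 1 ≤ val x) : log (val x) ≤ val (logHiF x) :=
  le_logHiF (nle_complete (by rw [val_one]; exact h))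

lemma logLoF_le' {x : NF} (h : 1 ≤ val x) : val (logLoF x) ≤ log (val x) :=
  logLoF_le (nle_complete (by rw [val_one]; exact h))

lemma entLoF_le' {x : NF} (h : val x ≤ 1) : val (entLoF x) ≤ binEntropy (val x) :=
  entLoF_le (val_natle h)

lemma le_entHiF' {x : NF} (h : val x ≤ 1) : binEntropy (val x) ≤ val (entHiF x) :=
  le_entHiF (val_natle h)

/-! ### Chains of intervals -/

/-- A chain of intervals, each piece checked from its left end. -/
def chain {α : Type} (right : α → NF) (ok : NF → α → Bool) : NF → List α → Bool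
  | _, [] => true
  | L, x :: t => ok L x && chain right ok (right x) t

/-- The right end of a chain. -/
def chainEnd {α : Type} (right : α → NF) : NF → List α → NF
  | L, [] => L
  | _, x :: t => chainEnd right (right x) t

lemma chain_exists {α : Type} {right : α → NF} {ok : NF → α → Bool} {Q : α → ℝ → Prop}
    (hstep : ∀ L x, ok L x = true → ∀ y ∈ Set.Icc (val L) (val (right x)), Q x y) :
    ∀ (l : List α) (L : NF), l ≠ [] → chain right ok L l = true →
      ∀ y ∈ Set.Icc (val L) (val (chainEnd right L l)), ∃ x ∈ l, Q x y := by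
  intro l
  induction l with
  | nil => intro L h; exact absurd rfl h
  | cons x t ih =>
    intro L _ hc y hy
    simp only [chain, Bool.and_eq_true] at hc
    simp only [chainEnd] at hy
    by_cases hyr : y ≤ val (right x)
    · exact ⟨x, List.mem_cons_self, hstep L x hc.1 y ⟨hy.1, hyr⟩⟩
    · rw [not_le] at hyr
      cases t with
      | nil =>
        simp only [chainEnd] at hy
        exact absurd hy.2 (not_le.mpr hyr)
      | cons z s =>
        obtain ⟨w, hw, hQ⟩ := ih (right x) (by simp) hc.2 y ⟨hyr.le, hy.2⟩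
        exact ⟨w, List.mem_cons_of_mem _ hw, hQ⟩

lemma chain_cover {α : Type} {right : α → NF} {ok : NF → α → Bool} {P : ℝ → Prop}
    (hstep : ∀ L x, ok L x = true → ∀ y ∈ Set.Icc (val L) (val (right x)), P y)
    (l : List α) (L : NF) (hl : l ≠ []) (hc : chain right ok L l = true)
    {y : ℝ} (hy : y ∈ Set.Icc (val L) (val (chainEnd right L l))) : P y := by
  obtain ⟨_, _, h⟩ := chain_exists (Q := fun _ y => P y) hstep l L hl hc y hy
  exact h

/-! ### The boxes -/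

/-- The linear form at a corner of a box. -/
def linF (P Q P' Q' ε e : NF) : NF :=
  nadd (nadd (nmul (nmul (ncomp ε) e) P) (nmul ε Q)) (nadd (nmul (nmul ε e) P') (nmul (ncomp ε) Q'))

/-- The right side at a corner of a box. -/
def rhsF (μ δ hε he e : NF) : NF :=
  nadd (nmul μ he) (nmul hε (nadd (nmul (nnat 2) e) (nmul δ (nhalfsub e))))

/-- The four corners of a box. -/
def boxCorners (μ δ ε₁ ε₂ h₁ h₂ e₁ e₂ g₁ g₂ P Q P' Q' : NF) : Bool :=
  nle (linF P Q P' Q' ε₁ e₁) (rhsF μ δ h₁ g₁ e₁) &&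
  nle (linF P Q P' Q' ε₁ e₂) (rhsF μ δ h₁ g₂ e₂) &&
  nle (linF P Q P' Q' ε₂ e₁) (rhsF μ δ h₂ g₁ e₁) &&
  nle (linF P Q P' Q' ε₂ e₂) (rhsF μ δ h₂ g₂ e₂)

/-- The check of a box. -/
def boxOK (μ δ ε₁ ε₂ e₁ : NF) (x : NF × NF × NF) : Bool :=
  npos x.2.1 && npos x.2.2 && nlt e₁ x.1 && nle x.1 nhalf &&
  boxCorners μ δ ε₁ ε₂ (entLoF ε₁) (entLoF ε₂) e₁ x.1 (entLoF e₁) (entLoF x.1)
    (logHiF (onePlus x.2.1)) (logHiF (onePlusInv x.2.1))
    (logHiF (onePlus x.2.2)) (logHiF (onePlusInv x.2.2))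

/-- The check of a strip of boxes in `e`. -/
def sepStrip (μ δ e₀ ε₁ ε₂ : NF) (l : List (NF × NF × NF)) : Bool :=
  !l.isEmpty && chain Prod.fst (boxOK μ δ ε₁ ε₂) e₀ l && nle nhalf (chainEnd Prod.fst e₀ l)

/-- The check of a family of strips in `ε`. -/
def sepStrips (μ δ e₀ εL εT : NF) (l : List (NF × List (NF × NF × NF))) : Bool :=
  !l.isEmpty && chain Prod.fst
      (fun L s => nlt L s.1 && nle s.1 nhalf && sepStrip μ δ e₀ L s.1 s.2) εL l &&
    nle εT (chainEnd Prod.fst εL l)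

/-- The tangent bound for `F1`. -/
lemma F1_le_lin {ε e r r' P Q P' Q' : ℝ} (hε0 : 0 ≤ ε) (hε1 : ε ≤ 1) (he0 : 0 ≤ e)
    (hr : 0 < r) (hr' : 0 < r') (hP : log (1 + r) ≤ P) (hQ : log (1 + 1 / r) ≤ Q)
    (hP' : log (1 + r') ≤ P') (hQ' : log (1 + 1 / r') ≤ Q') :
    F1 ε e ≤ (1 - ε) * e * P + ε * Q + (ε * e * P' + (1 - ε) * Q') := by
  have hα : 0 ≤ 1 - ε := by linarith
  have g1 := GG_tangent (a := (1 - ε) * e) (b := ε) (r := r) (by positivity) hε0 hr
  have g2 := GG_tangent (a := ε * e) (b := 1 - ε) (r := r') (by positivity) hα hr'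
  have t1 := mul_le_mul_of_nonneg_left hP (show 0 ≤ (1 - ε) * e by positivity)
  have t2 := mul_le_mul_of_nonneg_left hQ hε0
  have t3 := mul_le_mul_of_nonneg_left hP' (show 0 ≤ ε * e by positivity)
  have t4 := mul_le_mul_of_nonneg_left hQ' hα
  unfold F1
  linarith

/-- The box lemma over the reals. -/
lemma box_real {μ δ ε₁ ε₂ e₁ e₂ P Q P' Q' h₁ h₂ g₁ g₂ : ℝ} (hμ : 0 ≤ μ) (hδ : 0 ≤ δ)
    (hε0 : 0 ≤ ε₁) (hεlt : ε₁ < ε₂) (hε1 : ε₂ ≤ 1) (he0 : 0 ≤ e₁) (helt : e₁ < e₂) (he1 : e₂ ≤ 1 / 2)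
    (hh₁ : h₁ ≤ binEntropy ε₁) (hh₂ : h₂ ≤ binEntropy ε₂)
    (hg₁ : g₁ ≤ binEntropy e₁) (hg₂ : g₂ ≤ binEntropy e₂)
    (c11 : (1 - ε₁) * e₁ * P + ε₁ * Q + (ε₁ * e₁ * P' + (1 - ε₁) * Q')
      ≤ μ * g₁ + h₁ * (2 * e₁ + δ * (1 / 2 - e₁)))
    (c12 : (1 - ε₁) * e₂ * P + ε₁ * Q + (ε₁ * e₂ * P' + (1 - ε₁) * Q')
      ≤ μ * g₂ + h₁ * (2 * e₂ + δ * (1 / 2 - e₂)))
    (c21 : (1 - ε₂) * e₁ * P + ε₂ * Q + (ε₂ * e₁ * P' + (1 - ε₂) * Q')
      ≤ μ * g₁ + h₂ * (2 * e₁ + δ * (1 / 2 - e₁)))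
    (c22 : (1 - ε₂) * e₂ * P + ε₂ * Q + (ε₂ * e₂ * P' + (1 - ε₂) * Q')
      ≤ μ * g₂ + h₂ * (2 * e₂ + δ * (1 / 2 - e₂)))
    {ε e : ℝ} (hε : ε ∈ Set.Icc ε₁ ε₂) (he : e ∈ Set.Icc e₁ e₂) :
    (1 - ε) * e * P + ε * Q + (ε * e * P' + (1 - ε) * Q')
      ≤ μ * binEntropy e + binEntropy ε * (2 * e + δ * (1 / 2 - e)) := by
  have hD : ∀ x, 0 ≤ x → x ≤ 1 / 2 → 0 ≤ 2 * x + δ * (1 / 2 - x) := by
    intro x h0 h1
    have : 0 ≤ δ * (1 / 2 - x) := mul_nonneg hδ (by linarith)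
    linarith
  -- the two sides in `ε`
  have side : ∀ x g, 0 ≤ x → x ≤ 1 / 2 → g ≤ binEntropy x →
      (1 - ε₁) * x * P + ε₁ * Q + (ε₁ * x * P' + (1 - ε₁) * Q')
        ≤ μ * g + h₁ * (2 * x + δ * (1 / 2 - x)) →
      (1 - ε₂) * x * P + ε₂ * Q + (ε₂ * x * P' + (1 - ε₂) * Q')
        ≤ μ * g + h₂ * (2 * x + δ * (1 / 2 - x)) →
      (1 - ε) * x * P + ε * Q + (ε * x * P' + (1 - ε) * Q')
        ≤ μ * binEntropy x + binEntropy ε * (2 * x + δ * (1 / 2 - x)) := by
    intro x g hx0 hx1 hg c1 c2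
    have hDx := hD x hx0 hx1
    have hμg := mul_le_mul_of_nonneg_left hg hμ
    have t1 := mul_le_mul_of_nonneg_right hh₁ hDx
    have t2 := mul_le_mul_of_nonneg_right hh₂ hDx
    have := linear_le_entropy (μ := 2 * x + δ * (1 / 2 - x)) (p := ε₁) (q := ε₂)
      (a₀ := x * P + Q' - μ * binEntropy x) (a₁ := -(x * P) + Q + x * P' - Q') hDx hε0 hεlt hε1
      (by linarith) (by linarith) hε
    linarith
  have s1 := side e₁ g₁ he0 (by linarith) hg₁ c11 c21
  have s2 := side e₂ g₂ (by linarith) he1 hg₂ c12 c22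
  have hlin := linear_le_entropy (μ := μ) (p := e₁) (q := e₂)
    (a₀ := ε * Q + (1 - ε) * Q' - binEntropy ε * (δ / 2))
    (a₁ := (1 - ε) * P + ε * P' - binEntropy ε * (2 - δ)) hμ he0 helt (by linarith)
    (by linarith) (by linarith) he
  linarith

lemma val_linF (P Q P' Q' ε e : NF) (h : val ε ≤ 1) :
    val (linF P Q P' Q' ε e)
      = (1 - val ε) * val e * val P + val ε * val Q
        + (val ε * val e * val P' + (1 - val ε) * val Q') := by
  unfold linF
  simp only [val_add, val_mul, val_comp h]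

lemma val_rhsF (μ δ hε he e : NF) (h : val e ≤ 1 / 2) :
    val (rhsF μ δ hε he e)
      = val μ * val he + val hε * (2 * val e + val δ * (1 / 2 - val e)) := by
  unfold rhsF
  simp only [val_add, val_mul, val_nnat, val_halfsub h]
  norm_num

/-- Soundness of a box. -/
lemma boxOK_sound {μ δ ε₁ ε₂ e₁ : NF} {x : NF × NF × NF} (hε : val ε₁ < val ε₂)
    (hε2 : val ε₂ ≤ 1 / 2) (h : boxOK μ δ ε₁ ε₂ e₁ x = true) :
    ∀ e ∈ Set.Icc (val e₁) (val x.1), ∀ ε ∈ Set.Icc (val ε₁) (val ε₂),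
      F1 ε e ≤ val μ * binEntropy e + binEntropy ε * (2 * e + val δ * (1 / 2 - e)) := by
  unfold boxOK boxCorners at h
  simp only [Bool.and_eq_true] at h
  obtain ⟨⟨⟨⟨hr, hr'⟩, helt⟩, he2⟩, ⟨⟨c11, c12⟩, c21⟩, c22⟩ := h
  have hr0 := npos_sound hr
  have hr0' := npos_sound hr'
  have helt' := nlt_sound helt
  have he2' : val x.1 ≤ 1 / 2 := by
    have := nle_sound he2
    rwa [val_half] at this
  have he1' : val e₁ ≤ 1 / 2 := by linarith
  have hε1' : val ε₁ ≤ 1 := by linarith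
  have hε2' : val ε₂ ≤ 1 := by linarith
  have hP := le_logHiF' (x := onePlus x.2.1) (by
    rw [val_onePlus]
    linarith)
  have hQ := le_logHiF' (x := onePlusInv x.2.1) (by
    rw [val_onePlusInv hr0]
    have : 0 < 1 / val x.2.1 := by positivity
    linarith)
  have hP' := le_logHiF' (x := onePlus x.2.2) (by
    rw [val_onePlus]
    linarith)
  have hQ' := le_logHiF' (x := onePlusInv x.2.2) (by
    rw [val_onePlusInv hr0']
    have : 0 < 1 / val x.2.2 := by positivity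
    linarith)
  rw [val_onePlus] at hP hP'
  rw [val_onePlusInv hr0] at hQ
  rw [val_onePlusInv hr0'] at hQ'
  have c11' := nle_sound c11
  have c12' := nle_sound c12
  have c21' := nle_sound c21
  have c22' := nle_sound c22
  rw [val_linF _ _ _ _ _ _ hε1', val_rhsF _ _ _ _ _ he1'] at c11'
  rw [val_linF _ _ _ _ _ _ hε1', val_rhsF _ _ _ _ _ he2'] at c12'
  rw [val_linF _ _ _ _ _ _ hε2', val_rhsF _ _ _ _ _ he1'] at c21'
  rw [val_linF _ _ _ _ _ _ hε2', val_rhsF _ _ _ _ _ he2'] at c22'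
  intro e he ε hεm
  have h1 := box_real (val_nonneg μ) (val_nonneg δ) (val_nonneg ε₁) hε hε2' (val_nonneg e₁) helt' he2'
    (entLoF_le' hε1') (entLoF_le' hε2') (entLoF_le' (by linarith)) (entLoF_le' (by linarith))
    c11' c12' c21' c22' hεm he
  have h2 := F1_le_lin (ε := ε) (e := e) (hε0 := (val_nonneg ε₁).trans hεm.1)
    (hε1 := by linarith [hεm.2]) (he0 := (val_nonneg e₁).trans he.1) hr0 hr0' hP hQ hP' hQ'
  exact h2.trans h1

/-- Soundness of a strip. -/
lemma sepStrip_sound {μ δ e₀ ε₁ ε₂ : NF} {l : List (NF × NF × NF)} (hε : val ε₁ < val ε₂)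
    (hε2 : val ε₂ ≤ 1 / 2) (h : sepStrip μ δ e₀ ε₁ ε₂ l = true) :
    ∀ ε ∈ Set.Icc (val ε₁) (val ε₂), ∀ e ∈ Set.Icc (val e₀) (1 / 2),
      F1 ε e ≤ val μ * binEntropy e + binEntropy ε * (2 * e + val δ * (1 / 2 - e)) := by
  unfold sepStrip at h
  simp only [Bool.and_eq_true, Bool.not_eq_true'] at h
  obtain ⟨⟨hne, hc⟩, hend⟩ := h
  have hl : l ≠ [] := by
    intro h0
    rw [h0] at hne
    simp at hne
  have hend' := nle_sound hend
  rw [val_half] at hend'
  intro ε hεm e he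
  exact chain_cover (right := Prod.fst) (P := fun e => ∀ ε ∈ Set.Icc (val ε₁) (val ε₂),
      F1 ε e ≤ val μ * binEntropy e + binEntropy ε * (2 * e + val δ * (1 / 2 - e)))
    (fun L x hx y hy => boxOK_sound hε hε2 hx y hy) l e₀ hl hc ⟨he.1, he.2.trans hend'⟩ ε hεm

/-- Soundness of a family of strips. -/
lemma sepStrips_sound {μ δ e₀ εL εT : NF} {l : List (NF × List (NF × NF × NF))}
    (h : sepStrips μ δ e₀ εL εT l = true) :
    ∀ ε ∈ Set.Icc (val εL) (val εT), ∀ e ∈ Set.Icc (val e₀) (1 / 2),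
      F1 ε e ≤ val μ * binEntropy e + binEntropy ε * (2 * e + val δ * (1 / 2 - e)) := by
  unfold sepStrips at h
  simp only [Bool.and_eq_true, Bool.not_eq_true'] at h
  obtain ⟨⟨hne, hc⟩, hend⟩ := h
  have hl : l ≠ [] := by
    intro h0
    rw [h0] at hne
    simp at hne
  have hend' := nle_sound hend
  intro ε hεm e he
  refine chain_cover (right := Prod.fst) (P := fun ε => ∀ e ∈ Set.Icc (val e₀) (1 / 2),
      F1 ε e ≤ val μ * binEntropy e + binEntropy ε * (2 * e + val δ * (1 / 2 - e)))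
    ?_ l εL hl hc ⟨hεm.1, hεm.2.trans hend'⟩ e he
  intro L x hx y hy
  simp only [Bool.and_eq_true] at hx
  obtain ⟨⟨h1, h2⟩, h3⟩ := hx
  have h2' := nle_sound h2
  rw [val_half] at h2'
  exact sepStrip_sound (nlt_sound h1) h2' h3 y hy

/-- From the strips to the separation inequality. -/
lemma sep_of_strips {μ δ e₀ εL εT : NF} {l : List (NF × List (NF × NF × NF))}
    (h : sepStrips μ δ e₀ εL εT l = true) (he₀ : val e₀ = 0) :
    ∀ ε ∈ Set.Icc (val εL) (val εT), Sep ε (val μ) (val δ) := by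
  intro ε hε e he
  have := sepStrips_sound h ε hε e ⟨by rw [he₀]; exact he.1, he.2⟩
  nlinarith

end Vale.Agent.P322
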