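import Vale.Agent.P322.W.Check1

/-!
Reflective checks for the rows of cells.
-/

namespace Vale.Agent.P322

open Real

/-- The tangent majorant of the envelope, at `A`. -/
def majF (κ Ξ p LP LQ A : NF) : NF :=
  nadd (nmul κ (nadd (nmul A LP) (nmul (ncomp A) LQ)))
    (nmul Ξ (nadd (nmul (nnat 4) (nmul p p)) (nmul (nmul (nnat 4) (ncomp (nmul (nnat 2) p))) A)))

/-- The check at a vertex of a cell. -/
def vertexOK (κ Ξ p LP LQ μ δ A d : NF) : Bool :=
  nle (nmul d nhalf) A && nle (nadd A (nmul d nhalf)) none1 &&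
  nle (nadd (nmul (nmul δ nhalf) d)
        (nadd (nmul (ncomp μ) (nadd (nmul κ (entHiF A)) (nmul Ξ (nmul d d))))
          (nmul μ (majF κ Ξ p LP LQ A))))
      (nadd d (nmul (nmul (ncomp μ) κ)
        (nmul (nadd (entLoF (nadd A (nmul d nhalf))) (entLoF (nsub A (nmul d nhalf)))) nhalf)))

/-- Equality of fractions, as pairs. -/
def neq (a b : NF) : Bool := Nat.beq a.1 b.1 && Nat.beq a.2 b.2

lemma neq_sound {a b : NF} (h : neq a b = true) : a = b := by
  unfold neq at h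
  simp only [Bool.and_eq_true] at h
  exact Prod.ext (Nat.eq_of_beq_eq_true h.1) (Nat.eq_of_beq_eq_true h.2)

/-- Membership in a list of planes. -/
def planeIn (planes : List (NF × NF)) (μ δ : NF) : Bool :=
  planes.any (fun q => neq q.1 μ && neq q.2 δ)

lemma planeIn_sound {planes : List (NF × NF)} {μ δ : NF} (h : planeIn planes μ δ = true) :
    (μ, δ) ∈ planes := by
  unfold planeIn at h
  rw [List.any_eq_true] at h
  obtain ⟨q, hq, h1⟩ := h
  simp only [Bool.and_eq_true] at h1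
  have e1 := neq_sound h1.1
  have e2 := neq_sound h1.2
  have : q = (μ, δ) := Prod.ext e1 e2
  rwa [← this]

/-- The check of a cell. -/
def cellOK (planes : List (NF × NF)) (κ Ξ p LP LQ AL AR db tL tR μ δ : NF) : Bool :=
  planeIn planes μ δ &&
  vertexOK κ Ξ p LP LQ μ δ AL db && vertexOK κ Ξ p LP LQ μ δ AR db &&
  vertexOK κ Ξ p LP LQ μ δ AL tL && vertexOK κ Ξ p LP LQ μ δ AR tR

/-- The check of a stack of cells. -/
def stackOK (planes : List (NF × NF)) (κ Ξ p LP LQ AL AR tL tR lastμ lastδ : NF) :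
    NF → List (NF × NF × NF) → Bool
  | db, [] => cellOK planes κ Ξ p LP LQ AL AR db tL tR lastμ lastδ
  | db, x :: s => cellOK planes κ Ξ p LP LQ AL AR db x.1 x.1 x.2.1 x.2.2 &&
      stackOK planes κ Ξ p LP LQ AL AR tL tR lastμ lastδ x.1 s

/-- The real form of the majorant. -/
noncomputable def maj₀ (κ Ξ p LP LQ : ℝ) : ℝ := κ * LQ + Ξ * (4 * p ^ 2)

/-- The real form of the slope of the majorant. -/
noncomputable def maj₁ (κ Ξ p LP LQ : ℝ) : ℝ := κ * (LP - LQ) + Ξ * (4 * (1 - 2 * p))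

lemma val_majF {κ Ξ p LP LQ A : NF} (hA : val A ≤ 1) (hp : val p ≤ 1 / 2) :
    val (majF κ Ξ p LP LQ A)
      = maj₀ (val κ) (val Ξ) (val p) (val LP) (val LQ)
        + maj₁ (val κ) (val Ξ) (val p) (val LP) (val LQ) * val A := by
  have h2 : val (nmul (nnat 2) p) ≤ 1 := by
    rw [val_mul, val_nnat]
    push_cast
    linarith
  unfold majF maj₀ maj₁
  simp only [val_add, val_mul, val_nnat, val_comp hA, val_comp h2]
  push_cast
  ring

/-- The majorant is above the envelope. -/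
lemma LK_le_maj {κ Ξ p LP LQ A : ℝ} (hκ : 0 ≤ κ) (hΞ' : 1 - κ * log 2 ≤ Ξ)
    (hξ : 0 ≤ 1 - κ * log 2) (hp0 : 0 < p) (hp1 : p ≤ 1 / 2) (hLP : log (1 / p) ≤ LP)
    (hLQ : log (1 / (1 - p)) ≤ LQ) (hA0 : 0 ≤ A) (hA1 : A ≤ 1) :
    LK κ A ≤ maj₀ κ Ξ p LP LQ + maj₁ κ Ξ p LP LQ * A := by
  have hq : 0 < 1 - p := by linarith
  have hr : 0 < (1 - p) / p := by positivity
  have hg := GG_tangent (a := A) (b := 1 - A) (r := (1 - p) / p) hA0 (by linarith) hr
  have e1 : GG A (1 - A) = binEntropy A := by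
    unfold GG
    rw [binEntropy_eq_negMulLog_add_negMulLog_one_sub, show A + (1 - A) = 1 by ring]
    simp
  have e2 : 1 + (1 - p) / p = 1 / p := by
    field_simp
    ring
  have e3 : 1 + 1 / ((1 - p) / p) = 1 / (1 - p) := by
    field_simp
    ring
  rw [e1, e2, e3] at hg
  have t1 := mul_le_mul_of_nonneg_left hLP hA0
  have t2 := mul_le_mul_of_nonneg_left hLQ (show 0 ≤ 1 - A by linarith)
  have hh : binEntropy A ≤ A * LP + (1 - A) * LQ := by linarith
  have t3 := mul_le_mul_of_nonneg_left hh hκ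
  -- the tangent of the parabola
  have hpar : 4 * A * (1 - A) ≤ 4 * p ^ 2 + 4 * (1 - 2 * p) * A := by nlinarith [sq_nonneg (A - p)]
  have hpar0 : 0 ≤ 4 * p ^ 2 + 4 * (1 - 2 * p) * A := by
    have : 0 ≤ (1 - 2 * p) * A := mul_nonneg (by linarith) hA0
    nlinarith [sq_nonneg p]
  have t4 := mul_le_mul_of_nonneg_left hpar hξ
  have t5 := mul_le_mul_of_nonneg_right hΞ' hpar0
  unfold LK maj₀ maj₁
  nlinarith

/-- The real facts attached to a row. -/
structure RowCtx (κ Ξ p LP LQ : NF) : Prop where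
  hΞ' : 1 - val κ * log 2 ≤ val Ξ
  hξ : 0 ≤ 1 - val κ * log 2
  hp0 : 0 < val p
  hp1 : val p ≤ 1 / 2
  hLP : log (1 / val p) ≤ val LP
  hLQ : log (1 / (1 - val p)) ≤ val LQ
  hLL : val LQ ≤ val LP

/-- Soundness of a vertex. -/
lemma vertexOK_sound {κ Ξ p LP LQ μ δ A d : NF} (C : RowCtx κ Ξ p LP LQ) (hμ : val μ ≤ 1)
    (hA : val A ≤ 1) (h : vertexOK κ Ξ p LP LQ μ δ A d = true) :
    Vld (val A) (val d) ∧
      0 ≤ fcell (val κ) (val Ξ) (val μ) (2 - val δ)
        (maj₀ (val κ) (val Ξ) (val p) (val LP) (val LQ))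
        (maj₁ (val κ) (val Ξ) (val p) (val LP) (val LQ)) (val A) (val d) := by
  unfold vertexOK at h
  simp only [Bool.and_eq_true] at h
  obtain ⟨⟨h1, h2⟩, h3⟩ := h
  have h1' := nle_sound h1
  have h2' := nle_sound h2
  have h3' := nle_sound h3
  rw [val_mul, val_half] at h1'
  rw [val_add, val_mul, val_half, val_one] at h2'
  have hd0 := val_nonneg d
  have hA0 := val_nonneg A
  have hbd : val d * (1 / 2) = val d / 2 := by ring
  rw [hbd] at h1' h2'
  have ha₁ : val (nadd A (nmul d nhalf)) = val A + val d / 2 := by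
    rw [val_add, val_mul, val_half, hbd]
  have ha₂ : val (nsub A (nmul d nhalf)) = val A - val d / 2 := by
    rw [val_sub' (by rw [val_mul, val_half, hbd]; exact h1'), val_mul, val_half, hbd]
  have ha₁1 : val (nadd A (nmul d nhalf)) ≤ 1 := by rw [ha₁]; exact h2'
  have ha₂1 : val (nsub A (nmul d nhalf)) ≤ 1 := by rw [ha₂]; linarith
  have e1 := entLoF_le' ha₁1
  have e2 := entLoF_le' ha₂1
  rw [ha₁] at e1
  rw [ha₂] at e2
  have e3 := le_entHiF' hA
  refine ⟨⟨⟨by linarith, h2'⟩, ⟨by linarith, by linarith⟩⟩, ?_⟩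
  simp only [val_add, val_mul, val_half, val_comp hμ, val_majF hA C.hp1] at h3'
  set m₀ := maj₀ (val κ) (val Ξ) (val p) (val LP) (val LQ)
  set m₁ := maj₁ (val κ) (val Ξ) (val p) (val LP) (val LQ)
  set g₁ := val (entLoF (nadd A (nmul d nhalf)))
  set g₂ := val (entLoF (nsub A (nmul d nhalf)))
  set g := val (entHiF A)
  have hκ := val_nonneg κ
  have hm : 0 ≤ (1 - val μ) * val κ := mul_nonneg (by linarith) hκ
  have hJ : JJ (val A + val d / 2) (val A - val d / 2) ≤ g - (g₁ + g₂) * (1 / 2) := by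
    unfold JJ
    rw [show (val A + val d / 2 + (val A - val d / 2)) / 2 = val A by ring]
    linarith
  have t := mul_le_mul_of_nonneg_left hJ hm
  unfold fcell
  nlinarith

/-- Soundness of a cell. -/
lemma cellOK_sound {planes : List (NF × NF)} {κ Ξ p LP LQ AL AR db tL tR μ δ : NF}
    (C : RowCtx κ Ξ p LP LQ) (hμ : ∀ q ∈ planes, val q.1 ≤ 1) (hAL : val AL < val AR)
    (hAR : val AR ≤ 1) (h : cellOK planes κ Ξ p LP LQ AL AR db tL tR μ δ = true)
    {A d : ℝ} (hA0 : val AL ≤ A) (hA1 : A ≤ val AR) (hd0 : val db ≤ d)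
    (hd1 : (val AR - val AL) * d ≤ (val AR - A) * val tL + (A - val AL) * val tR) :
    (μ, δ) ∈ planes ∧ 0 ≤ fcell (val κ) (val Ξ) (val μ) (2 - val δ)
        (maj₀ (val κ) (val Ξ) (val p) (val LP) (val LQ))
        (maj₁ (val κ) (val Ξ) (val p) (val LP) (val LQ)) A d := by
  unfold cellOK at h
  simp only [Bool.and_eq_true] at h
  obtain ⟨⟨⟨⟨hin, v1⟩, v2⟩, v3⟩, v4⟩ := h
  have hin' := planeIn_sound hin
  have hμ' : val μ ≤ 1 := hμ _ hin'
  have hAL' : val AL ≤ 1 := by linarith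
  obtain ⟨w1, f1⟩ := vertexOK_sound C hμ' hAL' v1
  obtain ⟨w2, f2⟩ := vertexOK_sound C hμ' hAR v2
  obtain ⟨w3, f3⟩ := vertexOK_sound C hμ' hAL' v3
  obtain ⟨w4, f4⟩ := vertexOK_sound C hμ' hAR v4
  exact ⟨hin', fcell_corners (val_nonneg κ) (val_nonneg Ξ) hμ' hAL hA0 hA1 w1 w2 w3 w4 f1 f2 f3 f4
    hd0 hd1⟩

/-- Soundness of a stack of cells. -/
lemma stackOK_sound {planes : List (NF × NF)} {κ Ξ p LP LQ AL AR tL tR lastμ lastδ : NF}
    (C : RowCtx κ Ξ p LP LQ) (hμ : ∀ q ∈ planes, val q.1 ≤ 1) (hAL : val AL < val AR)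
    (hAR : val AR ≤ 1) {A d : ℝ} (hA0 : val AL ≤ A) (hA1 : A ≤ val AR)
    (hd1 : (val AR - val AL) * d ≤ (val AR - A) * val tL + (A - val AL) * val tR) :
    ∀ (s : List (NF × NF × NF)) (db : NF),
      stackOK planes κ Ξ p LP LQ AL AR tL tR lastμ lastδ db s = true → val db ≤ d →
      ∃ q ∈ planes, 0 ≤ fcell (val κ) (val Ξ) (val q.1) (2 - val q.2)
        (maj₀ (val κ) (val Ξ) (val p) (val LP) (val LQ))
        (maj₁ (val κ) (val Ξ) (val p) (val LP) (val LQ)) A d := by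
  intro s
  induction s with
  | nil =>
    intro db h hd0
    simp only [stackOK] at h
    obtain ⟨h1, h2⟩ := cellOK_sound C hμ hAL hAR h hA0 hA1 hd0 hd1
    exact ⟨_, h1, h2⟩
  | cons x s ih =>
    intro db h hd0
    simp only [stackOK, Bool.and_eq_true] at h
    by_cases hdt : d ≤ val x.1
    · have hd2 : (val AR - val AL) * d ≤ (val AR - A) * val x.1 + (A - val AL) * val x.1 := by
        have : (val AR - val AL) * d ≤ (val AR - val AL) * val x.1 :=
          mul_le_mul_of_nonneg_left hdt (by linarith)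
        linarith
      obtain ⟨h1, h2⟩ := cellOK_sound C hμ hAL hAR h.1 hA0 hA1 hd0 hd2
      exact ⟨_, h1, h2⟩
    · rw [not_le] at hdt
      exact ih x.1 h.2 hdt.le

end Vale.Agent.P322
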