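import Vale.Agent.P322.W.Check2

/-!
The block data and the master check.
-/

namespace Vale.Agent.P322

open Real

/-- A row of the table of cells. -/
structure Row where
  AR : NF
  p : NF
  dB : NF
  tL : NF
  tR : NF
  stack : List (NF × NF × NF)
  lastμ : NF
  lastδ : NF

/-- The data of a block of noise levels. -/
structure BlockD where
  elo : NF
  ehi : NF
  κ : NF
  Ξlo : NF
  Ξhi : NF
  subs : List (NF × NF × NF)
  planes : List (NF × NF)
  planeCerts : List (List (NF × List (NF × NF × NF)))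
  z₀ : NF
  C : NF
  A₀ : NF
  v₀ : NF
  x₀ : NF
  K₀ : NF
  η : NF
  lamc : NF
  w : NF
  Ahi : NF
  qbar : NF
  Eb : NF
  cstrips : List (NF × NF × List (NF × NF × NF))
  rows : List Row

/-- The lower bound of `log 2`. -/
def l2loF : NF := (L2lo, SC - 1)

/-- The upper bound of `log 2`. -/
def l2hiF : NF := (L2hi, SC - 1)

lemma val_SC (x : ℕ) : val (x, SC - 1) = (x : ℝ) / SC := by
  unfold val
  simp only
  rw [SC_cast]

lemma l2loF_le : val l2loF ≤ log 2 := by
  unfold l2loF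
  rw [val_SC]
  exact L2lo_le

lemma le_l2hiF : log 2 ≤ val l2hiF := by
  unfold l2hiF
  rw [val_SC]
  exact le_L2hi

/-- The fraction bounding `1 / log 2` from above. -/
def il2F : NF := ninv l2loF

lemma l2loF_pos : 0 < val l2loF := by
  unfold l2loF
  rw [val_SC]
  unfold L2lo SC
  norm_num

lemma le_il2F : 1 / log 2 ≤ val il2F := by
  unfold il2F
  rw [val_inv' l2loF_pos, one_div]
  exact inv_anti₀ l2loF_pos l2loF_le

/-- The global checks on a block. -/
def checkGlobals (D : BlockD) : Bool :=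
  npos D.elo && nlt D.elo D.ehi && nle D.ehi nhalf &&
  nle (nadd D.Ξlo (nmul D.κ l2hiF)) none1 &&
  nle none1 (nadd D.Ξhi (nmul D.κ l2loF)) &&
  npos D.z₀ && nlt D.z₀ none1 &&
  nle (nmul (onePlus D.z₀) (logHiF (onePlus D.z₀)))
    (nadd (nmul D.C (nmul D.z₀ D.z₀)) (nmul (ncomp D.z₀) (logLoF (ninv (ncomp D.z₀))))) &&
  npos D.A₀ && nle D.A₀ nhalf && nle (nmul D.A₀ (ncomp D.A₀)) D.v₀ &&
  npos D.x₀ && nle D.x₀ nhalf

/-- The piecewise constant bounds for the entropy and for `ε(1-ε)`. -/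
def subOK (L : NF) (s : NF × NF × NF) : Bool :=
  nlt L s.1 && nle s.1 nhalf && nle (entHiF s.1) s.2.1 && nle s.2.2 (nmul L (ncomp L))

/-- The checks on the list of sub intervals, with the two conditions which do not depend on the
row. -/
def checkSubs (D : BlockD) : Bool :=
  !D.subs.isEmpty && chain Prod.fst subOK D.elo D.subs &&
  nle D.ehi (chainEnd Prod.fst D.elo D.subs) &&
  D.subs.all (fun s =>
    nle (nmul s.2.1 (nadd D.κ (nmul (nnat 2) D.Ξhi))) none1 &&
    nle (nmul s.2.1 (nadd D.κ (nmul (nmul (nnat 8) D.Ξhi) D.v₀))) (nmul (nnat 4) s.2.2))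

/-- A plane and its certificate. -/
def planeOK (D : BlockD) (q : NF × NF) (cert : List (NF × List (NF × NF × NF))) : Bool :=
  nle (nmul (nnat 2) (nmul D.ehi (ncomp D.ehi))) q.1 && nle q.1 none1 && nle q.2 (nnat 2) &&
  sepStrips q.1 q.2 (0, 0) D.elo D.ehi cert

/-- The checks on the planes. -/
def checkPlanes (D : BlockD) : Bool :=
  (List.zipWith (planeOK D) D.planes D.planeCerts).all id &&
  Nat.beq D.planes.length D.planeCerts.length

/-- The value of `b`, from below. -/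
def bLoF (D : BlockD) : NF := logLoF (ninv D.Eb)

/-- The value of `b`, from above. -/
def bHiF (D : BlockD) : NF := logHiF (ninv D.Eb)

/-- The global checks of the corner family. -/
def checkCornerG (D : BlockD) : Bool :=
  npos D.K₀ && nle D.η (nnat 2) && nle D.lamc none1 &&
  npos D.Eb && nlt D.Eb none1 &&
  nle D.K₀ (nmul D.lamc (nadd (logLoF (ninv D.x₀)) (bLoF D))) &&
  nle (nmul (nnat 2) (nmul D.ehi (ncomp D.ehi))) (ncomp D.lamc) &&
  nle (nmul D.ehi (ncomp D.ehi)) D.Ahi && npos D.Ahi && nle D.Ahi none1 &&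
  nle (nadd D.K₀ D.w) (logLoF (ninv D.Ahi)) &&
  nle none1 (nmul D.qbar (nadd (logLoF (ninv D.ehi)) (ncomp D.ehi))) &&
  nle (nadd (nnat 2) D.η) (nmul D.K₀ D.κ) &&
  nle (nmul (nadd (nnat 2) D.η) (bHiF D))
    (nmul (nmul D.K₀ (nadd D.κ (nmul (nnat 4) D.Ξlo))) (ncomp D.x₀))

/-- A strip of the corner family. -/
def cstripOK (D : BlockD) (L : NF) (s : NF × NF × List (NF × NF × NF)) : Bool :=
  nlt L s.1 && nle s.1 nhalf && npos L && nle s.2.1 nhalf &&
  nle (nmul s.2.1
      (nadd (nadd (nmul (nmul (ncomp L) (ncomp L)) (ninv (nmul (nnat 2) L)))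
        (nmul (nmul s.1 s.1) (ninv (nmul (nnat 2) (ncomp s.1))))) none1)) D.w &&
  nle (nmul (nmul D.lamc D.Eb) D.qbar) (nmul (nmul D.η (nhalfsub s.2.1)) D.Ahi) &&
  sepStrip (ncomp D.lamc) (0, 0) s.2.1 L s.1 s.2.2

/-- The checks of the corner family. -/
def checkCorner (D : BlockD) : Bool :=
  checkCornerG D && !D.cstrips.isEmpty && chain Prod.fst (cstripOK D) D.elo D.cstrips &&
  nle D.ehi (chainEnd Prod.fst D.elo D.cstrips)

/-- The size condition of the second method on a row. -/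
def rowB (D : BlockD) (AL X dB : NF) (s : NF × NF × NF) : Bool :=
  nle (nmul (nmul s.2.1 (nadd (nmul (nmul D.κ D.C) (ninv (nmul (nnat 8) (nmul AL (ncomp AL))))) D.Ξhi))
      (nadd (nmul (nmul s.2.1 X) il2F) dB))
    (nmul (nnat 2) s.2.2)

/-- The check of a row. -/
def rowOK (D : BlockD) (AL : NF) (r : Row) : Bool :=
  npos AL && nlt AL r.AR && nle r.AR nhalf && npos r.p && nle r.p nhalf &&
  nle (logHiF (ninv (ncomp r.p))) (logHiF (ninv r.p)) &&
  ((nle (ncomp D.x₀) r.tL && nle (ncomp D.x₀) r.tR) ||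
    (nle (nmul (nnat 2) AL) r.tL && nle (nmul (nnat 2) r.AR) r.tR)) &&
  nle r.dB (nmul (nmul (nnat 2) D.z₀) AL) &&
  D.subs.all (rowB D AL (majF D.κ D.Ξhi r.p (logHiF (ninv r.p)) (logHiF (ninv (ncomp r.p))) r.AR) r.dB) &&
  stackOK D.planes D.κ D.Ξhi r.p (logHiF (ninv r.p)) (logHiF (ninv (ncomp r.p))) AL r.AR r.tL r.tR
    r.lastμ r.lastδ r.dB r.stack

/-- The checks on the rows. -/
def checkRows (D : BlockD) : Bool :=
  !D.rows.isEmpty && chain Row.AR (rowOK D) D.A₀ D.rows &&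
  nle nhalf (chainEnd Row.AR D.A₀ D.rows)

/-- The master check of a block. -/
def checkBlock (D : BlockD) : Bool :=
  checkGlobals D && checkSubs D && checkPlanes D && checkCorner D && checkRows D

/-! ### Soundness -/

/-- The real facts coming from the global checks. -/
structure GlobalsR (D : BlockD) : Prop where
  helo : 0 < val D.elo
  hlt : val D.elo < val D.ehi
  hehi : val D.ehi ≤ 1 / 2
  hξlo : val D.Ξlo ≤ 1 - val D.κ * log 2
  hξhi : 1 - val D.κ * log 2 ≤ val D.Ξhi
  hz0 : 0 < val D.z₀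
  hz1 : val D.z₀ < 1
  hC : Om (val D.z₀) ≤ val D.C * val D.z₀ ^ 2
  hA₀ : 0 < val D.A₀
  hA₀2 : val D.A₀ ≤ 1 / 2
  hv₀ : val D.A₀ * (1 - val D.A₀) ≤ val D.v₀
  hx₀ : 0 < val D.x₀
  hx₀2 : val D.x₀ ≤ 1 / 2

lemma globals_sound {D : BlockD} (h : checkGlobals D = true) : GlobalsR D := by
  unfold checkGlobals at h
  simp only [Bool.and_eq_true] at h
  obtain ⟨⟨⟨⟨⟨⟨⟨⟨⟨⟨⟨⟨h1, h2⟩, h3⟩, h4⟩, h5⟩, h6⟩, h7⟩, h8⟩, h9⟩, h10⟩, h11⟩, h12⟩, h13⟩ := h
  have h3' := nle_sound h3
  rw [val_half] at h3'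
  have h4' := nle_sound h4
  rw [val_add, val_mul, val_one] at h4'
  have h5' := nle_sound h5
  rw [val_add, val_mul, val_one] at h5'
  have h6' := npos_sound h6
  have h7' := nlt_sound h7
  rw [val_one] at h7'
  have h8' := nle_sound h8
  have h10' := nle_sound h10
  rw [val_half] at h10'
  have h11' := nle_sound h11
  rw [val_mul, val_comp (by linarith)] at h11'
  have h13' := nle_sound h13
  rw [val_half] at h13'
  have hκ := val_nonneg D.κ
  refine ⟨npos_sound h1, nlt_sound h2, h3', ?_, ?_, h6', h7', ?_, npos_sound h9, h10', h11',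
    npos_sound h12, h13'⟩
  · have := mul_le_mul_of_nonneg_left le_l2hiF hκ
    linarith
  · have := mul_le_mul_of_nonneg_left l2loF_le hκ
    linarith
  · have hc1 : val (ncomp D.z₀) = 1 - val D.z₀ := val_comp h7'.le
    have hc0 : 0 < 1 - val D.z₀ := by linarith
    have hi : val (ninv (ncomp D.z₀)) = 1 / (1 - val D.z₀) := by
      rw [val_inv' (by rw [hc1]; exact hc0), hc1, one_div]
    have h1p : 1 ≤ val (onePlus D.z₀) := by
      rw [val_onePlus]
      linarith
    have hhi := le_logHiF' h1p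
    have hlo := logLoF_le' (x := ninv (ncomp D.z₀)) (by
      rw [hi, le_div_iff₀ hc0]
      linarith)
    rw [hi, one_div, log_inv] at hlo
    rw [val_onePlus] at hhi
    simp only [val_add, val_mul, val_onePlus, hc1] at h8'
    have t1 := mul_le_mul_of_nonneg_left hhi (show 0 ≤ 1 + val D.z₀ by linarith)
    have t2 := mul_le_mul_of_nonneg_left hlo hc0.le
    unfold Om
    nlinarith

/-- The facts on a sub interval. -/
lemma subOK_sound {L : NF} {s : NF × NF × NF} (h : subOK L s = true) :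
    ∀ ε ∈ Set.Icc (val L) (val s.1),
      binEntropy ε ≤ val s.2.1 ∧ val s.2.2 ≤ ε * (1 - ε) := by
  unfold subOK at h
  simp only [Bool.and_eq_true] at h
  obtain ⟨⟨⟨h1, h2⟩, h3⟩, h4⟩ := h
  have h1' := nlt_sound h1
  have h2' := nle_sound h2
  rw [val_half] at h2'
  have h3' := nle_sound h3
  have h4' := nle_sound h4
  have hL1 : val L ≤ 1 := by linarith
  rw [val_mul, val_comp hL1] at h4'
  intro ε hε
  have hε2 : ε ≤ 1 / 2 := hε.2.trans h2'
  have hL0 := val_nonneg L
  constructor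
  · have hm := binEntropy_strictMonoOn.monotoneOn
      (show ε ∈ Set.Icc (0 : ℝ) 2⁻¹ from ⟨hL0.trans hε.1, by linarith⟩)
      (show val s.1 ∈ Set.Icc (0 : ℝ) 2⁻¹ from ⟨by linarith, by linarith⟩) hε.2
    exact hm.trans ((le_entHiF' (by linarith)).trans h3')
  · have : val L * (1 - val L) ≤ ε * (1 - ε) := by nlinarith [hε.1]
    linarith

/-- The covering of a block by the sub intervals. -/
lemma subs_exists {D : BlockD} (h : checkSubs D = true) :
    ∀ ε ∈ Set.Icc (val D.elo) (val D.ehi), ∃ s ∈ D.subs,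
      binEntropy ε ≤ val s.2.1 ∧ val s.2.2 ≤ ε * (1 - ε) := by
  unfold checkSubs at h
  simp only [Bool.and_eq_true, Bool.not_eq_true'] at h
  obtain ⟨⟨⟨hne, hc⟩, hend⟩, _⟩ := h
  have hl : D.subs ≠ [] := by
    intro h0
    rw [h0] at hne
    simp at hne
  have hend' := nle_sound hend
  intro ε hε
  exact chain_exists (right := Prod.fst) (Q := fun s ε => binEntropy ε ≤ val s.2.1 ∧ val s.2.2 ≤ ε * (1 - ε))
    (fun L x hx y hy => subOK_sound hx y hy) D.subs D.elo hl hc ε ⟨hε.1, hε.2.trans hend'⟩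

/-- The conditions of the first method and of the size. -/
lemma subs_conditions {D : BlockD} (h : checkSubs D = true) :
    ∀ s ∈ D.subs, val s.2.1 * (val D.κ + 2 * val D.Ξhi) ≤ 1 ∧
      val s.2.1 * (val D.κ + 8 * val D.Ξhi * val D.v₀) ≤ 4 * val s.2.2 := by
  unfold checkSubs at h
  simp only [Bool.and_eq_true, List.all_eq_true] at h
  intro s hs
  obtain ⟨h1, h2⟩ := h.2 s hs
  have h1' := nle_sound h1
  have h2' := nle_sound h2
  simp only [val_add, val_mul, val_nnat, val_one] at h1' h2'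
  push_cast at h1' h2'
  exact ⟨h1', h2'⟩

end Vale.Agent.P322
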