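import Vale.Agent.P322.W.Check3

/-!
Soundness of the master check.
-/

namespace Vale.Agent.P322

open Real

lemma zip_all {α β : Type} (f : α → β → Bool) :
    ∀ (l₁ : List α) (l₂ : List β), (List.zipWith f l₁ l₂).all id = true →
      Nat.beq l₁.length l₂.length = true → ∀ a ∈ l₁, ∃ b, f a b = true := by
  intro l₁
  induction l₁ with
  | nil => intro l₂ _ _ a ha; simp at ha
  | cons x t ih =>
    intro l₂ h hn a ha
    cases l₂ with
    | nil =>
      simp [Nat.beq] at hn
    | cons y s =>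
      simp only [List.zipWith_cons_cons, List.all_cons, Bool.and_eq_true, id] at h
      rcases List.mem_cons.mp ha with rfl | hm
      · exact ⟨y, h.1⟩
      · refine ih s h.2 ?_ a hm
        simpa [Nat.beq] using hn

/-- The real facts on a plane. -/
structure PlaneR (D : BlockD) (q : NF × NF) : Prop where
  hμ : 2 * (val D.ehi * (1 - val D.ehi)) ≤ val q.1
  hμ1 : val q.1 ≤ 1
  hδ : val q.2 ≤ 2
  hsep : ∀ ε ∈ Set.Icc (val D.elo) (val D.ehi), Sep ε (val q.1) (val q.2)

lemma planes_sound {D : BlockD} (G : GlobalsR D) (h : checkPlanes D = true) :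
    ∀ q ∈ D.planes, PlaneR D q := by
  unfold checkPlanes at h
  simp only [Bool.and_eq_true] at h
  intro q hq
  obtain ⟨cert, hc⟩ := zip_all _ _ _ h.1 h.2 q hq
  unfold planeOK at hc
  simp only [Bool.and_eq_true] at hc
  obtain ⟨⟨⟨h1, h2⟩, h3⟩, h4⟩ := hc
  have h1' := nle_sound h1
  have hehi1 : val D.ehi ≤ 1 := by linarith [G.hehi]
  rw [val_mul, val_mul, val_comp hehi1, val_nnat] at h1'
  push_cast at h1'
  have h2' := nle_sound h2
  rw [val_one] at h2'
  have h3' := nle_sound h3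
  rw [val_nnat] at h3'
  push_cast at h3'
  refine ⟨h1', h2', h3', sep_of_strips h4 ?_⟩
  unfold val
  simp

lemma eps_mono {x y : ℝ} (hx0 : 0 ≤ x) (hxy : x ≤ y) (hy : y ≤ 1 / 2) :
    x * (1 - x) ≤ y * (1 - y) := by
  nlinarith

/-- The entropy from below for small arguments. -/
lemma entropy_ge_q {ε : ℝ} (h0 : 0 < ε) (h1 : ε < 1) :
    ε * (-log ε + (1 - ε)) ≤ binEntropy ε := by
  have hhe : binEntropy ε = -ε * log ε - (1 - ε) * log (1 - ε) := by
    unfold binEntropy
    rw [log_inv, log_inv]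
    ring
  have hlog : log (1 - ε) ≤ -ε := by
    have := log_le_sub_one_of_pos (show 0 < 1 - ε by linarith)
    linarith
  have hh2 : (1 - ε) * log (1 - ε) ≤ (1 - ε) * (-ε) :=
    mul_le_mul_of_nonneg_left hlog (by linarith)
  rw [hhe]
  nlinarith

/-- The real facts on the corner family which do not depend on the strip. -/
structure CornerG (D : BlockD) : Prop where
  hK₀ : 0 < val D.K₀
  hη2 : val D.η ≤ 2
  hlamc1 : val D.lamc ≤ 1
  hEb0 : 0 < val D.Eb
  hEb1 : val D.Eb < 1
  hlamc : val D.K₀ ≤ val D.lamc * (-log (val D.x₀) + log (val (ninv D.Eb)))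
  h2A : 2 * (val D.ehi * (1 - val D.ehi)) ≤ 1 - val D.lamc
  hAhi : val D.ehi * (1 - val D.ehi) ≤ val D.Ahi
  hAhi0 : 0 < val D.Ahi
  hK : val D.K₀ + val D.w ≤ -log (val D.Ahi)
  hq : 1 ≤ val D.qbar * (-log (val D.ehi) + (1 - val D.ehi))
  hc1 : 2 + val D.η ≤ val D.K₀ * val D.κ
  hc2 : (2 + val D.η) * log (val (ninv D.Eb))
    ≤ val D.K₀ * (val D.κ + 4 * val D.Ξlo) * (1 - val D.x₀)

lemma log_inv_eq {x : ℝ} : log (1 / x) = -log x := by
  rw [one_div, log_inv]

lemma cornerG_sound {D : BlockD} (G : GlobalsR D) (h : checkCornerG D = true) : CornerG D := by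
  unfold checkCornerG at h
  simp only [Bool.and_eq_true] at h
  obtain ⟨⟨⟨⟨⟨⟨⟨⟨⟨⟨⟨⟨⟨h1, h2⟩, h3⟩, h4⟩, h5⟩, h6⟩, h7⟩, h8⟩, h9⟩, h10⟩, h11⟩, h12⟩, h13⟩, h14⟩ := h
  have hehi1 : val D.ehi ≤ 1 := by linarith [G.hehi]
  have h2' := nle_sound h2
  rw [val_nnat] at h2'
  push_cast at h2'
  have h3' := nle_sound h3
  rw [val_one] at h3'
  have h4' := npos_sound h4
  have h5' := nlt_sound h5
  rw [val_one] at h5'
  have hx₀ := G.hx₀
  have hx₀2 := G.hx₀2
  have hinvEb : val (ninv D.Eb) = (val D.Eb)⁻¹ := val_inv' h4'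
  have hinvEb1 : 1 ≤ val (ninv D.Eb) := by
    rw [hinvEb]
    exact (one_le_inv₀ h4').mpr h5'.le
  have hb0 : 0 ≤ log (val (ninv D.Eb)) := log_nonneg hinvEb1
  have hbLo : val (bLoF D) ≤ log (val (ninv D.Eb)) := logLoF_le' hinvEb1
  have hbHi : log (val (ninv D.Eb)) ≤ val (bHiF D) := le_logHiF' hinvEb1
  have hinvx : val (ninv D.x₀) = (val D.x₀)⁻¹ := val_inv' hx₀
  have hx1 : 1 ≤ val (ninv D.x₀) := by
    rw [hinvx]
    exact (one_le_inv₀ hx₀).mpr (by linarith)
  have hxlo := logLoF_le' hx1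
  rw [hinvx, log_inv] at hxlo
  have h6' := nle_sound h6
  simp only [val_add, val_mul] at h6'
  have t6 : val D.K₀ ≤ val D.lamc * (-log (val D.x₀) + log (val (ninv D.Eb))) := by
    refine h6'.trans (mul_le_mul_of_nonneg_left ?_ (val_nonneg _))
    linarith
  have h7' := nle_sound h7
  rw [val_mul, val_mul, val_comp hehi1, val_nnat, val_comp h3'] at h7'
  push_cast at h7'
  have h8' := nle_sound h8
  rw [val_mul, val_comp hehi1] at h8'
  have h9' := npos_sound h9
  have h10' := nle_sound h10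
  rw [val_one] at h10'
  have hinvA : val (ninv D.Ahi) = (val D.Ahi)⁻¹ := val_inv' h9'
  have hA1 : 1 ≤ val (ninv D.Ahi) := by
    rw [hinvA]
    exact (one_le_inv₀ h9').mpr h10'
  have hAlo := logLoF_le' hA1
  rw [hinvA, log_inv] at hAlo
  have h11' := nle_sound h11
  rw [val_add] at h11'
  have t11 : val D.K₀ + val D.w ≤ -log (val D.Ahi) := h11'.trans hAlo
  have h12' := nle_sound h12
  rw [val_one, val_mul, val_add, val_comp hehi1] at h12'
  have helo := G.helo
  have hlt := G.hlt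
  have hehi0 : 0 < val D.ehi := by linarith
  have hinve : val (ninv D.ehi) = (val D.ehi)⁻¹ := val_inv' hehi0
  have he1 : 1 ≤ val (ninv D.ehi) := by
    rw [hinve]
    exact (one_le_inv₀ hehi0).mpr hehi1
  have helow := logLoF_le' he1
  rw [hinve, log_inv] at helow
  have t12 : 1 ≤ val D.qbar * (-log (val D.ehi) + (1 - val D.ehi)) := by
    refine h12'.trans (mul_le_mul_of_nonneg_left ?_ (val_nonneg _))
    linarith
  have h13' := nle_sound h13
  rw [val_add, val_mul, val_nnat] at h13'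
  push_cast at h13'
  have h14' := nle_sound h14
  simp only [val_add, val_mul, val_nnat] at h14'
  push_cast at h14'
  rw [val_comp (by linarith)] at h14'
  have t14 : (2 + val D.η) * log (val (ninv D.Eb))
      ≤ val D.K₀ * (val D.κ + 4 * val D.Ξlo) * (1 - val D.x₀) := by
    refine le_trans ?_ h14'
    exact mul_le_mul_of_nonneg_left hbHi (by linarith [val_nonneg D.η])
  exact ⟨npos_sound h1, h2', h3', h4', h5', t6, h7', h8', h9', t11, t12, h13', t14⟩

/-- The bound for the coefficient of the quadratic term on a strip. -/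
lemma Wc_le {L R ε : ℝ} (hL : 0 < L) (h1 : L ≤ ε) (h2 : ε ≤ R) (hR : R < 1) :
    Wc ε ≤ (1 - L) * (1 - L) * (2 * L)⁻¹ + R * R * (2 * (1 - R))⁻¹ + 1 := by
  unfold Wc
  have hε : 0 < ε := by linarith
  have hα : 0 < 1 - ε := by linarith
  have hαR : 0 < 1 - R := by linarith
  have hαL : 0 ≤ 1 - L := by linarith
  have t1 : (1 - ε) ^ 2 / (2 * ε) ≤ (1 - L) * (1 - L) * (2 * L)⁻¹ := by
    rw [← div_eq_mul_inv, div_le_div_iff₀ (by positivity) (by positivity)]
    have h3 : (1 - ε) ^ 2 ≤ (1 - L) * (1 - L) := by nlinarith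
    have h4 : L ≤ ε := h1
    have h5 : (1 - ε) ^ 2 * L ≤ (1 - L) * (1 - L) * ε :=
      mul_le_mul h3 h4 hL.le (mul_nonneg hαL hαL)
    nlinarith
  have t2 : ε ^ 2 / (2 * (1 - ε)) ≤ R * R * (2 * (1 - R))⁻¹ := by
    rw [← div_eq_mul_inv, div_le_div_iff₀ (by positivity) (by positivity)]
    have h3 : ε ^ 2 ≤ R * R := by nlinarith
    have h4 : 1 - R ≤ 1 - ε := by linarith
    have h5 : ε ^ 2 * (1 - R) ≤ R * R * (1 - ε) :=
      mul_le_mul h3 h4 hαR.le (mul_self_nonneg R)
    nlinarith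
  linarith

/-- The corner hypotheses from a strip. -/
lemma cstrip_hyp {D : BlockD} (G : GlobalsR D) (CG : CornerG D) {L : NF}
    {s : NF × NF × List (NF × NF × NF)} (h : cstripOK D L s = true) :
    ∀ ε ∈ Set.Icc (val L) (val s.1), ε ∈ Set.Icc (val D.elo) (val D.ehi) →
      CornerHyp ε (val D.κ) (val D.K₀) (log (val (ninv D.Eb))) (val D.η) (val D.x₀) (val D.lamc)
        (val s.2.1) (val D.w) (val D.Ahi) (val D.qbar) (val D.Eb) (val D.Ξlo) := by
  unfold cstripOK at h
  simp only [Bool.and_eq_true] at h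
  obtain ⟨⟨⟨⟨⟨⟨h1, h2⟩, h3⟩, h4⟩, h5⟩, h6⟩, h7⟩ := h
  have h1' := nlt_sound h1
  have h2' := nle_sound h2
  rw [val_half] at h2'
  have hL0 := npos_sound h3
  have he₁ := nle_sound h4
  rw [val_half] at he₁
  intro ε hε hb
  have hR1 : val s.1 < 1 := by linarith
  have hε0 : 0 < ε := by linarith [hε.1]
  have hε2 : ε ≤ 1 / 2 := by linarith [hε.2]
  have hεξ : ε ≤ val D.ehi := hb.2
  have hehi := G.hehi
  have hA_mono := eps_mono hε0.le hεξ hehi
  have hLnz : 0 < val (nmul (nnat 2) L) := by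
    rw [val_mul, val_nnat]
    push_cast
    linarith
  have hRnz : 0 < val (nmul (nnat 2) (ncomp s.1)) := by
    rw [val_mul, val_nnat, val_comp hR1.le]
    push_cast
    linarith
  have h5' := nle_sound h5
  simp only [val_add, val_mul, val_one, val_comp (show val L ≤ 1 by linarith)] at h5'
  rw [val_inv' hLnz, val_inv' hRnz, val_mul, val_mul, val_nnat, val_comp hR1.le] at h5'
  push_cast at h5'
  have h6' := nle_sound h6
  simp only [val_mul, val_halfsub he₁] at h6'
  have hwb : val s.2.1 * Wc ε ≤ val D.w := by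
    refine le_trans (mul_le_mul_of_nonneg_left (Wc_le hL0 hε.1 hε.2 hR1) (val_nonneg _)) h5'
  have hsep := sepStrip_sound h1' h2' h7 ε hε
  have hαε : 0 ≤ 1 - ε := by linarith
  have hH0 : 0 < binEntropy ε := binEntropy_pos hε0 (by linarith)
  have hqe : ε * (1 - ε) ≤ val D.qbar * binEntropy ε := by
    have he1 : val D.ehi < 1 := by linarith
    have hg := entropy_ge_q hε0 (by linarith)
    have hl : -log (val D.ehi) ≤ -log ε := by
      have := log_le_log hε0 hεξ
      linarith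
    have h8 : val D.qbar * (ε * (-log (val D.ehi) + (1 - val D.ehi)))
        ≤ val D.qbar * binEntropy ε := by
      apply mul_le_mul_of_nonneg_left _ (val_nonneg _)
      refine le_trans (mul_le_mul_of_nonneg_left ?_ hε0.le) hg
      linarith
    have h9 := mul_le_mul_of_nonneg_left CG.hq hε0.le
    nlinarith
  have hinvEb : val (ninv D.Eb) = (val D.Eb)⁻¹ := val_inv' CG.hEb0
  refine
    { h0 := hε0
      h1 := hε2
      hκ := val_nonneg _
      hξ := G.hξlo
      hξ0 := val_nonneg _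
      hA := hA_mono.trans CG.hAhi
      hK₀ := CG.hK₀
      hb := ?_
      hη := val_nonneg _
      hη2 := CG.hη2
      hx₀ := G.hx₀
      hx₀1 := G.hx₀2
      hlamc1 := CG.hlamc1
      hlamc := CG.hlamc
      h2A := ?_
      he₁ := val_nonneg _
      he₂ := he₁
      hw := hwb
      hK := CG.hK
      hsep2 := ?_
      hq := hqe
      hEb := ?_
      hfin := h6'
      hc1 := CG.hc1
      hc2 := CG.hc2 }
  · rw [hinvEb]
    exact log_pos ((one_lt_inv₀ CG.hEb0).mpr CG.hEb1)
  · linarith [CG.h2A]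
  · intro e he
    have := hsep e he
    rw [val_comp CG.hlamc1] at this
    have e0 : val ((0, 0) : NF) = 0 := by
      unfold val
      simp
    rw [e0] at this
    linarith
  · rw [hinvEb, log_inv, neg_neg, exp_log CG.hEb0]

/-- The corner hypotheses on a block. -/
lemma corner_sound {D : BlockD} (G : GlobalsR D) (h : checkCorner D = true) :
    ∀ ε ∈ Set.Icc (val D.elo) (val D.ehi), ∃ e₁,
      CornerHyp ε (val D.κ) (val D.K₀) (log (val (ninv D.Eb))) (val D.η) (val D.x₀) (val D.lamc)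
        e₁ (val D.w) (val D.Ahi) (val D.qbar) (val D.Eb) (val D.Ξlo) := by
  unfold checkCorner at h
  simp only [Bool.and_eq_true, Bool.not_eq_true'] at h
  obtain ⟨⟨⟨h1, hne⟩, hc⟩, hend⟩ := h
  have CG := cornerG_sound G h1
  have hl : D.cstrips ≠ [] := by
    intro h0
    rw [h0] at hne
    simp at hne
  have hend' := nle_sound hend
  intro ε hε
  have := chain_cover (right := Prod.fst) (P := fun ε => ε ∈ Set.Icc (val D.elo) (val D.ehi) → ∃ e₁,
      CornerHyp ε (val D.κ) (val D.K₀) (log (val (ninv D.Eb))) (val D.η) (val D.x₀) (val D.lamc)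
        e₁ (val D.w) (val D.Ahi) (val D.qbar) (val D.Eb) (val D.Ξlo))
    (fun L x hx y hy hb => ⟨_, cstrip_hyp G CG hx y hy hb⟩) D.cstrips D.elo hl hc
    ⟨hε.1, hε.2.trans hend'⟩
  exact this hε

end Vale.Agent.P322
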