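import Vale.Agent.P322.Exact

/-!
General form of the induction: a lower envelope `LK κ`, valid planes below `S(u,w)` and the
induction on the dimension.
-/

namespace Vale.Agent.P322

open Real

/-- The lower envelope with parameter `κ`. -/
noncomputable def LK (κ a : ℝ) : ℝ :=
  κ * binEntropy a + (1 - κ * log 2) * (4 * a * (1 - a))

/-- The entropy defect at the midpoint. -/
noncomputable def JJ (u w : ℝ) : ℝ :=
  binEntropy ((u + w) / 2) - (binEntropy u + binEntropy w) / 2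

/-- A valid plane below `S(u,w)`. -/
def Plane (ε μ K : ℝ) : Prop :=
  ∀ u w : ℝ, u ∈ Set.Icc (0 : ℝ) 1 → w ∈ Set.Icc (0 : ℝ) 1 →
    (1 - μ) * (binEntropy u + binEntropy w) + K * |u - w| ≤ SS ε u w

/-- The closure of the induction step at a pair of means. -/
def CloseAt (ε κ a₁ a₂ : ℝ) : Prop :=
  (∃ μ K, Plane ε μ K ∧ μ ≤ 1 ∧ 0 ≤ K ∧
    2 * binEntropy ε * LK κ ((a₁ + a₂) / 2)
      ≤ (1 - μ) * (binEntropy ε * (LK κ a₁ + LK κ a₂)) + K * |a₁ - a₂|) ∨
  (2 * binEntropy ε * LK κ ((a₁ + a₂) / 2)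
      ≤ binEntropy ε * (LK κ a₁ + LK κ a₂) + 8 * (ε * (1 - ε)) * JJ a₁ a₂)

lemma LK_mid (κ a₁ a₂ : ℝ) :
    LK κ ((a₁ + a₂) / 2) = (LK κ a₁ + LK κ a₂) / 2 + κ * JJ a₁ a₂
      + (1 - κ * log 2) * (a₁ - a₂) ^ 2 := by
  unfold LK JJ
  ring

lemma LK_one_sub (κ a : ℝ) : LK κ (1 - a) = LK κ a := by
  unfold LK
  rw [binEntropy_one_sub]
  ring

lemma JJ_comm (u w : ℝ) : JJ u w = JJ w u := by
  unfold JJ
  rw [add_comm u w, add_comm (binEntropy u)]

lemma JJ_reflect (u w : ℝ) : JJ (1 - w) (1 - u) = JJ u w := by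
  unfold JJ
  rw [binEntropy_one_sub, binEntropy_one_sub,
    show (1 - w + (1 - u)) / 2 = 1 - (u + w) / 2 by ring, binEntropy_one_sub]
  ring

lemma SS_reflect (ε u w : ℝ) : SS ε (1 - w) (1 - u) = SS ε u w := by
  unfold SS
  rw [show (1 - ε) * (1 - w) + ε * (1 - u) = 1 - (ε * u + (1 - ε) * w) by ring,
    show ε * (1 - w) + (1 - ε) * (1 - u) = 1 - ((1 - ε) * u + ε * w) by ring,
    binEntropy_one_sub, binEntropy_one_sub]
  ring

/-- Symmetry of the closure in the two means. -/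
lemma CloseAt.swap {ε κ a₁ a₂ : ℝ} (h : CloseAt ε κ a₁ a₂) : CloseAt ε κ a₂ a₁ := by
  unfold CloseAt at h ⊢
  rw [add_comm a₂ a₁, add_comm (LK κ a₂), abs_sub_comm a₂ a₁, JJ_comm a₂ a₁]
  exact h

/-- Symmetry of the closure under reflection. -/
lemma CloseAt.reflect {ε κ a₁ a₂ : ℝ} (h : CloseAt ε κ a₁ a₂) :
    CloseAt ε κ (1 - a₂) (1 - a₁) := by
  unfold CloseAt at h ⊢
  rw [JJ_reflect, LK_one_sub, LK_one_sub, show (1 - a₂ + (1 - a₁)) / 2 = 1 - (a₁ + a₂) / 2 by ring,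
    LK_one_sub, show 1 - a₂ - (1 - a₁) = a₁ - a₂ by ring, add_comm (LK κ a₂)]
  exact h

/-! ### The entropy defect is convex -/

lemma negMulLog_two_mul (c : ℝ) : negMulLog (2 * c) = 2 * negMulLog c - 2 * c * log 2 := by
  rw [negMulLog_mul]
  unfold negMulLog
  ring

lemma JJ_eq_GG (u w : ℝ) :
    JJ u w = log 2 - (GG u w + GG (1 - u) (1 - w)) / 2 := by
  unfold JJ GG
  rw [binEntropy_eq_negMulLog_add_negMulLog_one_sub, binEntropy_eq_negMulLog_add_negMulLog_one_sub u,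
    binEntropy_eq_negMulLog_add_negMulLog_one_sub w]
  have e1 : u + w = 2 * ((u + w) / 2) := by ring
  have e2 : 1 - u + (1 - w) = 2 * (1 - (u + w) / 2) := by ring
  rw [e2, e1, negMulLog_two_mul, negMulLog_two_mul]
  rw [show 2 * ((u + w) / 2) / 2 = (u + w) / 2 by ring]
  ring

/-- Two point concavity of `GG`. -/
lemma GG_two_point {t p₁ q₁ p₂ q₂ : ℝ} (ht0 : 0 ≤ t) (ht1 : t ≤ 1) (hp₁ : 0 ≤ p₁) (hq₁ : 0 ≤ q₁)
    (hp₂ : 0 ≤ p₂) (hq₂ : 0 ≤ q₂) :
    t * GG p₁ q₁ + (1 - t) * GG p₂ q₂ ≤ GG (t * p₁ + (1 - t) * p₂) (t * q₁ + (1 - t) * q₂) := by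
  have ht2 : 0 ≤ 1 - t := by linarith
  set a := t * p₁ + (1 - t) * p₂ with ha
  set b := t * q₁ + (1 - t) * q₂ with hb
  have ha0 : 0 ≤ a := by positivity
  have hb0 : 0 ≤ b := by positivity
  have hsmall : ∀ {x y : ℝ}, 0 ≤ x → 0 ≤ y → ∀ {s : ℝ}, 0 ≤ s → s * x = 0 → s * GG x y = 0 := by
    intro x y hx hy s hs hsx
    rcases mul_eq_zero.mp hsx with h | h
    · rw [h]; ring
    · rw [h, GG_zero_left]; ring
  have hsmall2 : ∀ {x y : ℝ}, 0 ≤ x → 0 ≤ y → ∀ {s : ℝ}, 0 ≤ s → s * y = 0 → s * GG x y = 0 := by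
    intro x y hx hy s hs hsx
    rcases mul_eq_zero.mp hsx with h | h
    · rw [h]; ring
    · rw [h, GG_zero_right]; ring
  rcases eq_or_lt_of_le ha0 with ha1 | ha1
  · have e1 : t * p₁ = 0 := by
      have h1 : 0 ≤ t * p₁ := by positivity
      have h2 : 0 ≤ (1 - t) * p₂ := by positivity
      linarith
    have e2 : (1 - t) * p₂ = 0 := by
      have h1 : 0 ≤ t * p₁ := by positivity
      have h2 : 0 ≤ (1 - t) * p₂ := by positivity
      linarith
    rw [hsmall hp₁ hq₁ ht0 e1, hsmall hp₂ hq₂ ht2 e2, ← ha1, GG_zero_left]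
    simp
  rcases eq_or_lt_of_le hb0 with hb1 | hb1
  · have e1 : t * q₁ = 0 := by
      have h1 : 0 ≤ t * q₁ := by positivity
      have h2 : 0 ≤ (1 - t) * q₂ := by positivity
      linarith
    have e2 : (1 - t) * q₂ = 0 := by
      have h1 : 0 ≤ t * q₁ := by positivity
      have h2 : 0 ≤ (1 - t) * q₂ := by positivity
      linarith
    rw [hsmall2 hp₁ hq₁ ht0 e1, hsmall2 hp₂ hq₂ ht2 e2, ← hb1, GG_zero_right]
    simp
  have hr : 0 < b / a := by positivity
  have g1 := GG_tangent hp₁ hq₁ hr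
  have g2 := GG_tangent hp₂ hq₂ hr
  rw [GG_eq ha1 hb1]
  have e : 1 / (b / a) = a / b := by field_simp
  rw [e] at g1 g2
  have h1 := mul_le_mul_of_nonneg_left g1 ht0
  have h2 := mul_le_mul_of_nonneg_left g2 ht2
  have e3 : a * log (1 + b / a) + b * log (1 + a / b)
      = t * (p₁ * log (1 + b / a) + q₁ * log (1 + a / b))
        + (1 - t) * (p₂ * log (1 + b / a) + q₂ * log (1 + a / b)) := by
    rw [ha, hb]
    ring
  rw [e3]
  linarith

/-- Two point convexity of the entropy defect. -/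
lemma JJ_two_point {t u₁ w₁ u₂ w₂ : ℝ} (ht0 : 0 ≤ t) (ht1 : t ≤ 1)
    (hu₁ : u₁ ∈ Set.Icc (0 : ℝ) 1) (hw₁ : w₁ ∈ Set.Icc (0 : ℝ) 1)
    (hu₂ : u₂ ∈ Set.Icc (0 : ℝ) 1) (hw₂ : w₂ ∈ Set.Icc (0 : ℝ) 1) :
    JJ (t * u₁ + (1 - t) * u₂) (t * w₁ + (1 - t) * w₂) ≤ t * JJ u₁ w₁ + (1 - t) * JJ u₂ w₂ := by
  have g1 := GG_two_point ht0 ht1 hu₁.1 hw₁.1 hu₂.1 hw₂.1
  have g2 := GG_two_point ht0 ht1 (show 0 ≤ 1 - u₁ by linarith [hu₁.2])
    (show 0 ≤ 1 - w₁ by linarith [hw₁.2]) (show 0 ≤ 1 - u₂ by linarith [hu₂.2])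
    (show 0 ≤ 1 - w₂ by linarith [hw₂.2])
  rw [show t * (1 - u₁) + (1 - t) * (1 - u₂) = 1 - (t * u₁ + (1 - t) * u₂) by ring,
    show t * (1 - w₁) + (1 - t) * (1 - w₂) = 1 - (t * w₁ + (1 - t) * w₂) by ring] at g2
  rw [JJ_eq_GG, JJ_eq_GG u₁, JJ_eq_GG u₂]
  nlinarith

/-- Jensen for `GG` over the cube. -/
lemma avg_GG_le {n : ℕ} {u w : Cube n → ℝ} (hu : ∀ y, 0 ≤ u y) (hw : ∀ y, 0 ≤ w y) :
    avg (fun y => GG (u y) (w y)) ≤ GG (avg u) (avg w) := by
  have hpow : (0 : ℝ) < 2 ^ n := by positivity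
  have hzero : ∀ {v : Cube n → ℝ}, (∀ y, 0 ≤ v y) → avg v = 0 → ∀ y, v y = 0 := by
    intro v hv h y
    unfold avg at h
    have h1 : ∑ y, v y = 0 := by
      rcases div_eq_zero_iff.mp h with h2 | h2
      · exact h2
      · exact absurd h2 hpow.ne'
    exact (Finset.sum_eq_zero_iff_of_nonneg (fun i _ => hv i)).mp h1 y (Finset.mem_univ y)
  have ha0 : 0 ≤ avg u := avg_nonneg hu
  have hb0 : 0 ≤ avg w := avg_nonneg hw
  rcases eq_or_lt_of_le ha0 with ha1 | ha1
  · have hz := hzero hu ha1.symm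
    have e : (fun y => GG (u y) (w y)) = fun _ => (0 : ℝ) := by
      funext y
      rw [hz y, GG_zero_left]
    rw [e, avg_const, ← ha1, GG_zero_left]
  rcases eq_or_lt_of_le hb0 with hb1 | hb1
  · have hz := hzero hw hb1.symm
    have e : (fun y => GG (u y) (w y)) = fun _ => (0 : ℝ) := by
      funext y
      rw [hz y, GG_zero_right]
    rw [e, avg_const, ← hb1, GG_zero_right]
  have hr : 0 < avg w / avg u := by positivity
  rw [GG_eq ha1 hb1]
  have e1 : 1 / (avg w / avg u) = avg u / avg w := by field_simp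
  have hm : avg (fun y => GG (u y) (w y)) ≤ avg (fun y => log (1 + avg w / avg u) * u y
      + log (1 + avg u / avg w) * w y) := by
    apply avg_mono
    intro y
    have := GG_tangent (hu y) (hw y) hr
    rw [e1] at this
    linarith
  rw [avg_add, avg_const_mul, avg_const_mul] at hm
  linarith

/-- Jensen for the entropy defect over the cube. -/
lemma avg_JJ_ge {n : ℕ} {u w : Cube n → ℝ} (hu : ∀ y, u y ∈ Set.Icc (0 : ℝ) 1)
    (hw : ∀ y, w y ∈ Set.Icc (0 : ℝ) 1) :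
    JJ (avg u) (avg w) ≤ avg (fun y => JJ (u y) (w y)) := by
  have g1 := avg_GG_le (u := u) (w := w) (fun y => (hu y).1) (fun y => (hw y).1)
  have g2 := avg_GG_le (u := fun y => 1 - u y) (w := fun y => 1 - w y)
    (fun y => by linarith [(hu y).2]) (fun y => by linarith [(hw y).2])
  have eu : avg (fun y => 1 - u y) = 1 - avg u := by
    have e : (fun y => 1 - u y) = fun y => 1 + (-1) * u y := by
      funext y
      ring
    rw [e, avg_add, avg_const, avg_const_mul]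
    ring
  have ew : avg (fun y => 1 - w y) = 1 - avg w := by
    have e : (fun y => 1 - w y) = fun y => 1 + (-1) * w y := by
      funext y
      ring
    rw [e, avg_add, avg_const, avg_const_mul]
    ring
  rw [eu, ew] at g2
  have e : (fun y => JJ (u y) (w y)) = fun y => log 2 +
      ((-1 / 2) * GG (u y) (w y) + (-1 / 2) * GG (1 - u y) (1 - w y)) := by
    funext y
    rw [JJ_eq_GG]
    ring
  rw [e, avg_add, avg_const, avg_add, avg_const_mul, avg_const_mul, JJ_eq_GG]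
  linarith

/-- `Om (ρ z) ≤ ρ² Om z`. -/
lemma Om_scale {ρ z : ℝ} (hρ0 : 0 ≤ ρ) (hρ1 : ρ ≤ 1) (hz : |z| ≤ 1) :
    Om (ρ * z) ≤ ρ ^ 2 * Om z := by
  rw [← Om_abs (ρ * z), ← Om_abs z, abs_mul, abs_of_nonneg hρ0]
  set y := |z| with hy
  have hy0 : 0 ≤ y := abs_nonneg z
  rcases eq_or_lt_of_le hy0 with h | h
  · rw [← h]
    simp [Om_zero]
  rcases eq_or_lt_of_le hρ0 with h2 | h2
  · rw [← h2]
    simp [Om_zero]
  have hm : ρ * y ∈ Set.Ioc (0 : ℝ) 1 := ⟨by positivity, by nlinarith⟩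
  have hle : ρ * y ≤ y := by nlinarith
  have := Om_ratio_mono hm ⟨h, hz⟩ hle
  simp only at this
  have hpos : 0 < (ρ * y) ^ 2 := by positivity
  rw [div_le_iff₀ hpos] at this
  have e : Om y / y ^ 2 * (ρ * y) ^ 2 = ρ ^ 2 * Om y := by
    field_simp
  rwa [e] at this

/-- The pointwise bound behind the first method. -/
lemma SS_ge_JJ {ε u w : ℝ} (h0 : 0 ≤ ε) (h1 : ε ≤ 1 / 2) (hu : u ∈ Set.Icc (0 : ℝ) 1)
    (hw : w ∈ Set.Icc (0 : ℝ) 1) :
    binEntropy u + binEntropy w + 8 * (ε * (1 - ε)) * JJ u w ≤ SS ε u w := by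
  obtain ⟨hu0, hu1⟩ := hu
  obtain ⟨hw0, hw1⟩ := hw
  set c := (u + w) / 2 with hc
  have hJ : JJ u w = binEntropy c - (binEntropy u + binEntropy w) / 2 := by
    unfold JJ
    rw [hc]
  rcases eq_or_lt_of_le (show 0 ≤ c by rw [hc]; positivity) with hc0 | hc0
  · have hu' : u = 0 := by linarith
    have hw' : w = 0 := by linarith
    simp [hu', hw', JJ, SS]
  rcases eq_or_lt_of_le (show c ≤ 1 by rw [hc]; linarith) with hc1 | hc1
  · have hu' : u = 1 := by linarith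
    have hw' : w = 1 := by linarith
    simp [hu', hw', JJ, SS]
  set τ := (u - w) / 2 with hτ
  set ρ := 1 - 2 * ε with hρ
  have hρ0 : 0 ≤ ρ := by rw [hρ]; linarith
  have hρ1 : ρ ≤ 1 := by rw [hρ]; linarith
  have hc1' : 0 < 1 - c := by linarith
  have eu : u = c + τ := by rw [hc, hτ]; ring
  have ew : w = c - τ := by rw [hc, hτ]; ring
  have e1 : (1 - ε) * u + ε * w = c + ρ * τ := by rw [hc, hτ, hρ]; ring
  have e2 : ε * u + (1 - ε) * w = c - ρ * τ := by rw [hc, hτ, hρ]; ring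
  have m1 := midpoint_formula (δ := τ) hc0.ne' hc1'.ne'
  have m2 := midpoint_formula (δ := ρ * τ) hc0.ne' hc1'.ne'
  have hz1 : |τ / c| ≤ 1 := by
    rw [abs_div, abs_of_pos hc0, div_le_one hc0, abs_le, hτ, hc]
    constructor <;> linarith
  have hz2 : |τ / (1 - c)| ≤ 1 := by
    rw [abs_div, abs_of_pos hc1', div_le_one hc1', abs_le, hτ, hc]
    constructor <;> linarith
  have g1 := Om_scale hρ0 hρ1 hz1
  have g2 := Om_scale hρ0 hρ1 hz2
  have r1 : ρ * τ / c = ρ * (τ / c) := by ring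
  have r2 : ρ * τ / (1 - c) = ρ * (τ / (1 - c)) := by ring
  rw [← eu, ← ew] at m1
  have eS : SS ε u w = 2 * binEntropy c - c * Om (ρ * (τ / c)) - (1 - c) * Om (ρ * (τ / (1 - c))) := by
    unfold SS
    rw [e1, e2, m2, r1, r2]
  have hJ2 : 2 * JJ u w = c * Om (τ / c) + (1 - c) * Om (τ / (1 - c)) := by
    rw [hJ, m1]
    ring
  have t1 := mul_le_mul_of_nonneg_left g1 hc0.le
  have t2 := mul_le_mul_of_nonneg_left g2 hc1'.le
  have q : 4 * (ε * (1 - ε)) = 1 - ρ ^ 2 := by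
    rw [hρ]; ring
  have hs : binEntropy u + binEntropy w = 2 * binEntropy c - 2 * JJ u w := by
    rw [hJ]
    ring
  have e5 : 8 * (ε * (1 - ε)) * JJ u w = (1 - ρ ^ 2) * (2 * JJ u w) := by
    rw [← q]
    ring
  rw [eS, hs, e5, hJ2]
  nlinarith

/-- The general induction on the dimension. -/
theorem envelope_general {ε κ : ℝ} (h0 : 0 < ε) (h1 : ε ≤ 1 / 2)
    (hbase : ∀ u ∈ Set.Icc (0 : ℝ) 1, binEntropy ε * LK κ u ≤ binEntropy u)
    (hclose : ∀ a₁ ∈ Set.Icc (0 : ℝ) 1, ∀ a₂ ∈ Set.Icc (0 : ℝ) 1, CloseAt ε κ a₁ a₂) :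
    ∀ {n : ℕ} (g : Cube n → ℝ), (∀ x, 0 ≤ g x ∧ g x ≤ 1) →
      binEntropy ε * LK κ (avg g) ≤ avg (fun y => binEntropy (noise ε g y)) := by
  have hε1 : ε ≤ 1 := by linarith
  have hH : 0 ≤ binEntropy ε := binEntropy_nonneg h0.le hε1
  intro n
  induction n with
  | zero =>
    intro g hg
    rw [avg_zero_dim _ default, avg_zero_dim _ default, noise_zero_dim]
    exact hbase _ ⟨(hg _).1, (hg _).2⟩
  | succ n ih =>
    intro g hg
    set gp : Cube n → ℝ := fun x => g (Fin.cons true x) with hgp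
    set gm : Cube n → ℝ := fun x => g (Fin.cons false x) with hgm
    have hgp01 : ∀ x, 0 ≤ gp x ∧ gp x ≤ 1 := fun x => hg _
    have hgm01 : ∀ x, 0 ≤ gm x ∧ gm x ≤ 1 := fun x => hg _
    set u := noise ε gp with hu
    set w := noise ε gm with hw
    have hu01 : ∀ y, u y ∈ Set.Icc (0 : ℝ) 1 := fun y =>
      ⟨(noise_mem h0.le hε1 gp hgp01 y).1, (noise_mem h0.le hε1 gp hgp01 y).2⟩
    have hw01 : ∀ y, w y ∈ Set.Icc (0 : ℝ) 1 := fun y =>
      ⟨(noise_mem h0.le hε1 gm hgm01 y).1, (noise_mem h0.le hε1 gm hgm01 y).2⟩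
    have hau : avg u = avg gp := avg_noise gp
    have haw : avg w = avg gm := avg_noise gm
    have hag : avg g = (avg gp + avg gm) / 2 := avg_succ g
    have ha1 : avg gp ∈ Set.Icc (0 : ℝ) 1 := by
      rw [← hau]
      have h1 : avg (fun _ : Cube n => (0 : ℝ)) ≤ avg u := avg_mono (fun y => (hu01 y).1)
      have h2 : avg u ≤ avg (fun _ : Cube n => (1 : ℝ)) := avg_mono (fun y => (hu01 y).2)
      rw [avg_const] at h1 h2
      exact ⟨h1, h2⟩
    have ha2 : avg gm ∈ Set.Icc (0 : ℝ) 1 := by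
      rw [← haw]
      have h1 : avg (fun _ : Cube n => (0 : ℝ)) ≤ avg w := avg_mono (fun y => (hw01 y).1)
      have h2 : avg w ≤ avg (fun _ : Cube n => (1 : ℝ)) := avg_mono (fun y => (hw01 y).2)
      rw [avg_const] at h1 h2
      exact ⟨h1, h2⟩
    have hES : avg (fun y => binEntropy (noise ε g y)) =
        avg (fun y => SS ε (u y) (w y)) / 2 := by
      rw [avg_succ]
      simp only [noise_cons_true, noise_cons_false]
      unfold SS
      rw [avg_add]
    rw [hES, hag]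
    have hU := ih gp hgp01
    have hW := ih gm hgm01
    set U := avg (fun y => binEntropy (u y)) with hUdef
    set W := avg (fun y => binEntropy (w y)) with hWdef
    rcases hclose _ ha1 _ ha2 with ⟨μ, K, hP, hμ, hK, hc⟩ | hc
    · -- a plane
      have hT : |avg gp - avg gm| ≤ avg (fun y => |u y - w y|) := by
        rw [← hau, ← haw]
        exact avg_abs_ge u w
      have hp : (1 - μ) * (U + W) + K * avg (fun y => |u y - w y|)
          ≤ avg (fun y => SS ε (u y) (w y)) := by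
        rw [hUdef, hWdef, ← avg_add, ← avg_const_mul, ← avg_const_mul, ← avg_add]
        apply avg_mono
        intro y
        exact hP _ _ (hu01 y) (hw01 y)
      have t1 := mul_le_mul_of_nonneg_left hT hK
      have t2 : (1 - μ) * (binEntropy ε * (LK κ (avg gp) + LK κ (avg gm))) ≤ (1 - μ) * (U + W) := by
        apply mul_le_mul_of_nonneg_left _ (by linarith)
        rw [mul_add]
        linarith
      linarith
    · -- the first method
      have hp : U + W + 8 * (ε * (1 - ε)) * avg (fun y => JJ (u y) (w y))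
          ≤ avg (fun y => SS ε (u y) (w y)) := by
        rw [hUdef, hWdef, ← avg_add, ← avg_const_mul, ← avg_add]
        apply avg_mono
        intro y
        exact SS_ge_JJ h0.le h1 (hu01 y) (hw01 y)
      have hJ := avg_JJ_ge hu01 hw01
      rw [hau, haw] at hJ
      have hA : 0 ≤ 8 * (ε * (1 - ε)) := by
        have : 0 ≤ 1 - ε := by linarith
        positivity
      have t1 := mul_le_mul_of_nonneg_left hJ hA
      have t2 : binEntropy ε * (LK κ (avg gp) + LK κ (avg gm)) ≤ U + W := by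
        rw [mul_add]
        linarith
      linarith

/-- From the envelope to the mutual information. -/
theorem mutual_of_envelope {ε κ : ℝ} (h0 : 0 < ε) (h1 : ε ≤ 1 / 2)
    (hsize : binEntropy ε * (κ + 2 * (1 - κ * log 2)) ≤ 1) (hξ : 0 ≤ 1 - κ * log 2)
    (hH : ∀ {n : ℕ} (g : Cube n → ℝ), (∀ x, 0 ≤ g x ∧ g x ≤ 1) →
      binEntropy ε * LK κ (avg g) ≤ avg (fun y => binEntropy (noise ε g y)))
    {n : ℕ} (f : Cube n → Bool) :
    mutualInfo ε f ≤ 1 - h2 ε := by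
  have hm := one_sub_mutualInfo h0.le (by linarith) f
  have he := hH (indicator f) (indicator_mem f)
  set a := avg (indicator f) with ha
  have hl : 0 < log 2 := log_pos (by norm_num)
  have hH0 : 0 ≤ binEntropy ε := binEntropy_nonneg h0.le (by linarith)
  have ha0 : 0 ≤ a := by
    have h3 : avg (fun _ : Cube n => (0 : ℝ)) ≤ avg (indicator f) :=
      avg_mono (fun y => (indicator_mem f y).1)
    rwa [avg_const] at h3
  have ha1 : a ≤ 1 := by
    have h3 : avg (indicator f) ≤ avg (fun _ : Cube n => (1 : ℝ)) :=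
      avg_mono (fun y => (indicator_mem f y).2)
    rwa [avg_const] at h3
  have hp := pinsker ha0 ha1
  have hLa : binEntropy ε ≤ log 2 - binEntropy a + binEntropy ε * LK κ a := by
    unfold LK
    have hq : 0 ≤ log 2 - binEntropy a := by linarith [binEntropy_le_log_two (p := a)]
    have e : 1 - 4 * a * (1 - a) = 4 * (a - 1 / 2) ^ 2 := by ring
    have hp2 : 1 - 4 * a * (1 - a) ≤ 2 * (log 2 - binEntropy a) := by
      rw [e]
      have := pinsker ha0 ha1
      nlinarith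
    have h3 : binEntropy ε * ((1 - κ * log 2) * (1 - 4 * a * (1 - a)))
        ≤ binEntropy ε * ((1 - κ * log 2) * (2 * (log 2 - binEntropy a))) :=
      mul_le_mul_of_nonneg_left (mul_le_mul_of_nonneg_left hp2 hξ) hH0
    have h4 := mul_le_mul_of_nonneg_right hsize hq
    nlinarith
  have hfin : log 2 * (h2 ε) ≤ log 2 * (1 - mutualInfo ε f) := by
    rw [hm, h2_eq]
    have e : log 2 * (binEntropy ε / log 2) = binEntropy ε := by
      field_simp
    rw [e]
    linarith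
  have := le_of_mul_le_mul_left hfin hl
  linarith

end Vale.Agent.P322
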