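import Vale.Agent.P322.W.Regimes

/-!
The family of planes near the corner `(a₁, a₂) = (1, 0)`.
-/

namespace Vale.Agent.P322

open Real

/-- `log x ≤ (x - 1/x)/2` for `x ≥ 1`. -/
lemma log_le_half {x : ℝ} (hx : 1 ≤ x) : log x ≤ (x - 1 / x) / 2 := by
  have hx0 : 0 < x := by linarith
  have hz0 : 0 ≤ (x - 1) / (x + 1) := div_nonneg (by linarith) (by linarith)
  have hz1 : (x - 1) / (x + 1) < 1 := by
    rw [div_lt_one (by linarith)]
    linarith
  have h := log_ratio_le hz0 hz1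
  have e1 : 1 + (x - 1) / (x + 1) = 2 * x / (x + 1) := by
    field_simp
    ring
  have e2 : 1 - (x - 1) / (x + 1) = 2 / (x + 1) := by
    field_simp
    ring
  have hp : (0 : ℝ) < x + 1 := by linarith
  rw [e1, e2, log_div (by positivity) hp.ne', log_div (by norm_num) hp.ne',
    log_mul (by norm_num) hx0.ne'] at h
  have e3 : 2 * ((x - 1) / (x + 1)) / (1 - ((x - 1) / (x + 1)) ^ 2) = (x - 1 / x) / 2 := by
    have h4 : 1 - ((x - 1) / (x + 1)) ^ 2 = 4 * x / (x + 1) ^ 2 := by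
      field_simp
      ring
    rw [h4]
    field_simp
    ring
  rw [e3] at h
  linarith

/-- The bound `(a+b) log ((a+b)/b) ≤ a + a²/(2b)`. -/
lemma mul_log_bound {a b : ℝ} (ha : 0 ≤ a) (hb : 0 < b) :
    (a + b) * (log (a + b) - log b) ≤ a + a ^ 2 / (2 * b) := by
  have hab : 0 < a + b := by linarith
  have hx : 1 ≤ (a + b) / b := by
    rw [le_div_iff₀ hb]
    linarith
  have h := log_le_half hx
  rw [log_div hab.ne' hb.ne'] at h
  have h2 := mul_le_mul_of_nonneg_left h hab.le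
  have e : (a + b) * (((a + b) / b - 1 / ((a + b) / b)) / 2) = a + a ^ 2 / (2 * b) := by
    field_simp
    ring
  rwa [e] at h2

/-- The coefficient of the quadratic term. -/
noncomputable def Wc (ε : ℝ) : ℝ := (1 - ε) ^ 2 / (2 * ε) + ε ^ 2 / (2 * (1 - ε)) + 1

lemma Wc_nonneg {ε : ℝ} (h0 : 0 < ε) (h1 : ε ≤ 1 / 2) : 0 ≤ Wc ε := by
  unfold Wc
  have : 0 < 1 - ε := by linarith
  positivity

/-- The expansion of `F1` at small `e`. -/
lemma F1_small_e {ε e : ℝ} (h0 : 0 < ε) (h1 : ε ≤ 1 / 2) (he0 : 0 ≤ e) (he1 : e ≤ 1 / 2) :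
    F1 ε e ≤ binEntropy e + 2 * binEntropy ε * e + e * log (ε * (1 - ε)) + e ^ 2 * Wc ε := by
  rcases eq_or_lt_of_le he0 with rfl | he
  · simp [F1_zero]
  have hα : 0 < 1 - ε := by linarith
  have hab : 0 < (1 - ε) * e := by positivity
  have hbb : 0 < ε * e := by positivity
  have g1 := GG_expand hab h0
  have g2 := GG_expand hbb hα
  have b1 := mul_log_bound hab.le h0
  have b2 := mul_log_bound hbb.le hα
  have l1 : log ((1 - ε) * e) = log (1 - ε) + log e := log_mul hα.ne' he.ne'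
  have l2 : log (ε * e) = log ε + log e := log_mul h0.ne' he.ne'
  have l3 : log (ε * (1 - ε)) = log ε + log (1 - ε) := log_mul h0.ne' hα.ne'
  have hHe : binEntropy ε = -ε * log ε - (1 - ε) * log (1 - ε) := by
    unfold binEntropy
    rw [log_inv, log_inv]
    ring
  have hhe : binEntropy e = -e * log e - (1 - e) * log (1 - e) := by
    unfold binEntropy
    rw [log_inv, log_inv]
    ring
  have hlog : log (1 - e) ≤ -e := by
    have := log_le_sub_one_of_pos (show 0 < 1 - e by linarith)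
    linarith
  have hh2 : (1 - e) * log (1 - e) ≤ (1 - e) * (-e) :=
    mul_le_mul_of_nonneg_left hlog (by linarith)
  have e1 : ((1 - ε) * e) ^ 2 / (2 * ε) = e ^ 2 * ((1 - ε) ^ 2 / (2 * ε)) := by ring
  have e2 : (ε * e) ^ 2 / (2 * (1 - ε)) = e ^ 2 * (ε ^ 2 / (2 * (1 - ε))) := by ring
  rw [e1] at b1
  rw [e2] at b2
  unfold F1 Wc
  rw [g1, g2, l1, l2, hhe, hHe, l3]
  set R₁ := log ((1 - ε) * e + ε) with hR₁
  set R₂ := log (ε * e + (1 - ε)) with hR₂
  set P := (1 - ε) ^ 2 / (2 * ε) with hP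
  set Q := ε ^ 2 / (2 * (1 - ε)) with hQ
  set lε := log ε with hlε
  set lα := log (1 - ε) with hlα
  set le := log e with hle
  set l1e := log (1 - e) with hl1e
  nlinarith [b1, b2, hh2]

/-- The entropy against a Gibbs measure. -/
lemma entropy_le_gibbs {e : ℝ} (s : ℝ) (h0 : 0 ≤ e) (h1 : e ≤ 1) :
    binEntropy e ≤ e * s + exp (-s) := by
  have h := GG_tangent (a := e) (b := 1 - e) (r := exp s) h0 (by linarith) (exp_pos s)
  have e1 : GG e (1 - e) = binEntropy e := by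
    unfold GG
    rw [binEntropy_eq_negMulLog_add_negMulLog_one_sub, show e + (1 - e) = 1 by ring]
    simp
  have e2 : 1 + exp s = exp s * (1 + exp (-s)) := by
    rw [mul_add, ← exp_add]
    simp
    ring
  have hp : 0 < 1 + exp (-s) := by positivity
  have e3 : log (1 + exp s) = s + log (1 + exp (-s)) := by
    rw [e2, log_mul (exp_pos s).ne' hp.ne', log_exp]
  have e4 : 1 / exp s = exp (-s) := by
    rw [exp_neg]
    simp
  rw [e1, e3, e4] at h
  have hl : log (1 + exp (-s)) ≤ exp (-s) := by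
    have := log_le_sub_one_of_pos hp
    linarith
  nlinarith

/-- The corner form of the separation inequality. -/
lemma corner_sep {ε lam lamc e₁ w δ : ℝ} (h0 : 0 < ε) (h1 : ε ≤ 1 / 2) (hlam0 : 0 < lam)
    (hlam : lam ≤ lamc) (he₁ : 0 ≤ e₁) (he₂ : e₁ ≤ 1 / 2) (hw : e₁ * Wc ε ≤ w)
    (hsep2 : ∀ e ∈ Set.Icc e₁ (1 / 2),
      F1 ε e ≤ (1 - lamc) * binEntropy e + 2 * binEntropy ε * e)
    (hδ0 : 0 ≤ δ)
    (hexp : lam * exp (-((-log (ε * (1 - ε)) - w) / lam)) ≤ binEntropy ε * δ * (1 / 2 - e₁)) :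
    Sep ε (1 - lam) δ := by
  have hH : 0 ≤ binEntropy ε := binEntropy_nonneg h0.le (by linarith)
  intro e he
  have hhe : 0 ≤ binEntropy e := binEntropy_nonneg he.1 (by linarith [he.2])
  have hHδ : 0 ≤ binEntropy ε * δ := mul_nonneg hH hδ0
  rcases le_total e e₁ with h | h
  · have hs := F1_small_e h0 h1 he.1 he.2
    have hWc := Wc_nonneg h0 h1
    have hq : e ^ 2 * Wc ε ≤ e * w := by
      have h3 : e * Wc ε ≤ e₁ * Wc ε := mul_le_mul_of_nonneg_right h hWc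
      have h4 := mul_le_mul_of_nonneg_left (h3.trans hw) he.1
      nlinarith
    set L := -log (ε * (1 - ε)) - w with hL
    have hg := entropy_le_gibbs (L / lam) he.1 (by linarith [he.2])
    have hg2 := mul_le_mul_of_nonneg_left hg hlam0.le
    have e5 : lam * (e * (L / lam) + exp (-(L / lam))) = e * L + lam * exp (-(L / lam)) := by
      field_simp
    rw [e5] at hg2
    have h6 : binEntropy ε * δ * (1 / 2 - e₁) ≤ binEntropy ε * δ * (1 / 2 - e) :=
      mul_le_mul_of_nonneg_left (by linarith) hHδ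
    rw [hL] at hg2 hexp
    nlinarith
  · have := hsep2 e ⟨h, he.2⟩
    have h7 : 0 ≤ binEntropy ε * δ * (1 / 2 - e) := mul_nonneg hHδ (by linarith [he.2])
    have h8 : (1 - lamc) * binEntropy e ≤ (1 - lam) * binEntropy e :=
      mul_le_mul_of_nonneg_right (by linarith) hhe
    linarith

/-- The exponential estimate. -/
lemma corner_exp {x K₀ b lam w A Ahi : ℝ} (hx0 : 0 < x) (hK₀ : 0 < K₀)
    (hD : 0 < -log x + b) (hlam : lam = K₀ / (-log x + b)) (hlam1 : lam ≤ 1)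
    (hA0 : 0 < A) (hA : A ≤ Ahi) (hK : K₀ + w ≤ -log Ahi) :
    exp (-((-log A - w) / lam)) ≤ x * exp (-b) * (A / Ahi) := by
  have hlam0 : 0 < lam := by
    rw [hlam]
    positivity
  have hAhi : 0 < Ahi := by linarith
  have hk : K₀ / lam = -log x + b := by
    rw [hlam]
    field_simp
  have hG : log (Ahi / A) ≤ -log A - w - K₀ := by
    rw [log_div hAhi.ne' hA0.ne']
    linarith
  have hG0 : 0 ≤ log (Ahi / A) := log_nonneg (by
    rw [le_div_iff₀ hA0]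
    linarith)
  have hGl : log (Ahi / A) ≤ (-log A - w - K₀) / lam := by
    rw [le_div_iff₀ hlam0]
    have : log (Ahi / A) * lam ≤ log (Ahi / A) * 1 := mul_le_mul_of_nonneg_left hlam1 hG0
    have h3 : (-log A - w - K₀) * lam ≤ (-log A - w - K₀) := by
      have h4 : 0 ≤ -log A - w - K₀ := hG0.trans hG
      nlinarith
    nlinarith [mul_le_mul_of_nonneg_right hG hlam0.le]
  have e1 : (-log A - w) / lam = K₀ / lam + (-log A - w - K₀) / lam := by
    field_simp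
    ring
  have hexp : -((-log A - w) / lam) ≤ log x + -b + log (A / Ahi) := by
    rw [e1, hk, log_div hA0.ne' hAhi.ne']
    rw [log_div hAhi.ne' hA0.ne'] at hGl
    linarith
  have hpos : 0 < A / Ahi := by positivity
  calc exp (-((-log A - w) / lam)) ≤ exp (log x + -b + log (A / Ahi)) := exp_le_exp.mpr hexp
    _ = x * exp (-b) * (A / Ahi) := by
      rw [exp_add, exp_add, exp_log hx0, exp_log hpos]

/-- Subadditivity of the envelope. -/
lemma LK_subadd {κ p q : ℝ} (hκ : 0 ≤ κ) (hξ : 0 ≤ 1 - κ * log 2) (hp : 0 ≤ p) (hq : 0 ≤ q)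
    (hpq : p + q ≤ 1) : LK κ (p + q) ≤ LK κ p + LK κ q := by
  unfold LK
  have h4 := mul_le_mul_of_nonneg_left (entropy_subadd hp hq hpq) hκ
  have h5 : 4 * (p + q) * (1 - (p + q)) ≤ 4 * p * (1 - p) + 4 * q * (1 - q) := by
    nlinarith [mul_nonneg hp hq]
  have h6 := mul_le_mul_of_nonneg_left h5 hξ
  nlinarith

/-- The envelope at the reflected gap. -/
lemma LK_gap {κ a₁ a₂ : ℝ} (hκ : 0 ≤ κ) (hξ : 0 ≤ 1 - κ * log 2) (h1 : a₁ ∈ Set.Icc (0 : ℝ) 1)
    (h2 : a₂ ∈ Set.Icc (0 : ℝ) 1) : LK κ (1 - |a₁ - a₂|) ≤ LK κ a₁ + LK κ a₂ := by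
  obtain ⟨h10, h11⟩ := h1
  obtain ⟨h20, h21⟩ := h2
  rcases le_total a₂ a₁ with h | h
  · rw [abs_of_nonneg (by linarith)]
    have := LK_subadd hκ hξ (show 0 ≤ 1 - a₁ by linarith) h20 (by linarith)
    rw [LK_one_sub] at this
    rwa [show 1 - (a₁ - a₂) = 1 - a₁ + a₂ by ring]
  · rw [abs_of_nonpos (by linarith)]
    have := LK_subadd hκ hξ (show 0 ≤ 1 - a₂ by linarith) h10 (by linarith)
    rw [LK_one_sub] at this
    rw [show 1 - -(a₁ - a₂) = 1 - a₂ + a₁ by ring]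
    linarith

/-- The lower bound of the envelope at small arguments. -/
lemma LK_lower {κ x : ℝ} (hκ : 0 ≤ κ) (hξ : 0 ≤ 1 - κ * log 2) (hx0 : 0 < x) (hx1 : x < 1) :
    x * (κ * (-log x + (1 - x)) + 4 * (1 - κ * log 2) * (1 - x)) ≤ LK κ x := by
  unfold LK
  have hhe : binEntropy x = -x * log x - (1 - x) * log (1 - x) := by
    unfold binEntropy
    rw [log_inv, log_inv]
    ring
  have hlog : log (1 - x) ≤ -x := by
    have := log_le_sub_one_of_pos (show 0 < 1 - x by linarith)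
    linarith
  have hh2 : (1 - x) * log (1 - x) ≤ (1 - x) * (-x) :=
    mul_le_mul_of_nonneg_left hlog (by linarith)
  have h3 : x * (-log x + (1 - x)) ≤ binEntropy x := by
    rw [hhe]
    nlinarith
  have h4 := mul_le_mul_of_nonneg_left h3 hκ
  nlinarith

/-- The numerical conditions of the corner family. -/
structure CornerHyp (ε κ K₀ b η x₀ lamc e₁ w Ahi qbar Eb Ξlo : ℝ) : Prop where
  h0 : 0 < ε
  h1 : ε ≤ 1 / 2
  hκ : 0 ≤ κ
  hξ : Ξlo ≤ 1 - κ * log 2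
  hξ0 : 0 ≤ Ξlo
  hA : ε * (1 - ε) ≤ Ahi
  hK₀ : 0 < K₀
  hb : 0 < b
  hη : 0 ≤ η
  hη2 : η ≤ 2
  hx₀ : 0 < x₀
  hx₀1 : x₀ ≤ 1 / 2
  hlamc1 : lamc ≤ 1
  hlamc : K₀ ≤ lamc * (-log x₀ + b)
  h2A : 2 * (ε * (1 - ε)) ≤ 1 - lamc
  he₁ : 0 ≤ e₁
  he₂ : e₁ ≤ 1 / 2
  hw : e₁ * Wc ε ≤ w
  hK : K₀ + w ≤ -log Ahi
  hsep2 : ∀ e ∈ Set.Icc e₁ (1 / 2), F1 ε e ≤ (1 - lamc) * binEntropy e + 2 * binEntropy ε * e
  hq : ε * (1 - ε) ≤ qbar * binEntropy ε
  hEb : exp (-b) ≤ Eb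
  hfin : lamc * Eb * qbar ≤ η * (1 / 2 - e₁) * Ahi
  hc1 : 2 + η ≤ K₀ * κ
  hc2 : (2 + η) * b ≤ K₀ * (κ + 4 * Ξlo) * (1 - x₀)

/-- A numerical step of the corner family, in plain variables. -/
lemma corner_K {K κ Ξ Ξlo X b η x x₀ : ℝ} (hK : 0 < K) (hX : 0 ≤ X) (hκ : 0 ≤ κ) (hΞ : Ξlo ≤ Ξ)
    (hΞ0 : 0 ≤ Ξlo) (hx : x ≤ x₀) (hx₀ : x₀ ≤ 1 / 2) (hc1 : 2 + η ≤ K * κ)
    (hc2 : (2 + η) * b ≤ K * (κ + 4 * Ξlo) * (1 - x₀)) :
    (2 + η) * (X + b) ≤ K * (κ * (X + (1 - x)) + 4 * Ξ * (1 - x)) := by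
  have h4 : (2 + η) * X ≤ K * κ * X := mul_le_mul_of_nonneg_right hc1 hX
  have h5 : K * (κ + 4 * Ξlo) * (1 - x₀) ≤ K * (κ + 4 * Ξ) * (1 - x) := by
    apply mul_le_mul
    · apply mul_le_mul_of_nonneg_left _ hK.le
      linarith
    · linarith
    · linarith
    · have : 0 ≤ Ξ := hΞ0.trans hΞ
      positivity
  have e : K * (κ * (X + (1 - x)) + 4 * Ξ * (1 - x)) = K * κ * X + K * (κ + 4 * Ξ) * (1 - x) := by
    ring
  rw [e]
  nlinarith

/-- The exponential estimate in plain variables. -/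
lemma corner_exp2 {lam lamc x E Eb A Ahi qbar H η e₁ T : ℝ} (hlam0 : 0 ≤ lam) (hlamle : lam ≤ lamc)
    (hx0 : 0 ≤ x) (hE0 : 0 ≤ E) (hEb : E ≤ Eb) (hA0 : 0 ≤ A) (hAhi : 0 < Ahi) (hH : 0 ≤ H)
    (hq : A ≤ qbar * H) (hT : T ≤ x * E * (A / Ahi))
    (hfin : lamc * Eb * qbar ≤ η * (1 / 2 - e₁) * Ahi) :
    lam * T ≤ H * (η * x) * (1 / 2 - e₁) := by
  have hlamc0 : 0 ≤ lamc := hlam0.trans hlamle
  have hEb0 : 0 ≤ Eb := hE0.trans hEb
  have t1 := mul_le_mul_of_nonneg_left hT hlam0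
  have t2 : lam * (x * E * (A / Ahi)) ≤ lamc * (x * Eb * (A / Ahi)) := by
    apply mul_le_mul hlamle _ (by positivity) hlamc0
    apply mul_le_mul_of_nonneg_right _ (by positivity)
    exact mul_le_mul_of_nonneg_left hEb hx0
  have t3 : lamc * (x * Eb * (A / Ahi)) * Ahi = lamc * x * Eb * A := by
    field_simp
  have t4 : lamc * x * Eb * A ≤ lamc * x * Eb * (qbar * H) :=
    mul_le_mul_of_nonneg_left hq (by positivity)
  have t5 : lamc * Eb * qbar * (x * H) ≤ η * (1 / 2 - e₁) * Ahi * (x * H) :=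
    mul_le_mul_of_nonneg_right hfin (by positivity)
  have t6 : lam * T * Ahi ≤ H * (η * x) * (1 / 2 - e₁) * Ahi := by
    have t7 := mul_le_mul_of_nonneg_right (t1.trans t2) hAhi.le
    rw [t3] at t7
    nlinarith
  exact le_of_mul_le_mul_right t6 hAhi

/-- The last step of the corner family, in plain variables. -/
lemma corner_last {lam Lx S La x η : ℝ} (hlam0 : 0 ≤ lam) (hx0 : 0 ≤ x) (hη : 0 ≤ η)
    (hgap : Lx ≤ S) (hLa : La ≤ 1) (hl : x * (2 + η) ≤ lam * Lx) :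
    2 * La ≤ lam * S + (2 - η * x) * (1 - x) := by
  have h4 := mul_le_mul_of_nonneg_left hgap hlam0
  have h5 : 0 ≤ η * x * x := by positivity
  nlinarith

/-- The closure near the corner. -/
theorem corner_close {ε κ K₀ b η x₀ lamc e₁ w Ahi qbar Eb Ξlo a₁ a₂ : ℝ}
    (C : CornerHyp ε κ K₀ b η x₀ lamc e₁ w Ahi qbar Eb Ξlo)
    (ha₁ : a₁ ∈ Set.Icc (0 : ℝ) 1) (ha₂ : a₂ ∈ Set.Icc (0 : ℝ) 1)
    (hd1 : 1 - x₀ ≤ |a₁ - a₂|) (hd2 : |a₁ - a₂| < 1) : CloseAt ε κ a₁ a₂ := by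
  obtain ⟨h0, h1, hκ, hξ, hξ0, hA, hK₀, hb, hη, hη2, hx₀, hx₀1, hlamc1, hlamc, h2A, he₁, he₂, hw, hK,
    hsep2, hq, hEb, hfin, hc1, hc2⟩ := C
  have hξ1 : 0 ≤ 1 - κ * log 2 := by linarith
  have hH : 0 ≤ binEntropy ε := binEntropy_nonneg h0.le (by linarith)
  have hα : 0 < 1 - ε := by linarith
  have hA0 : 0 < ε * (1 - ε) := mul_pos h0 hα
  have hAhi : 0 < Ahi := by linarith
  obtain ⟨x, hx⟩ : ∃ x, x = 1 - |a₁ - a₂| := ⟨_, rfl⟩
  have hx0 : 0 < x := by rw [hx]; linarith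
  have hxx : x ≤ x₀ := by rw [hx]; linarith
  have hx1 : x < 1 := by linarith
  have hlx : log x ≤ log x₀ := log_le_log hx0 hxx
  have hlx0 : log x < 0 := log_neg hx0 hx1
  have hD : 0 < -log x + b := by linarith
  obtain ⟨lam, hlamdef⟩ : ∃ lam, lam = K₀ / (-log x + b) := ⟨_, rfl⟩
  have hlam0 : 0 < lam := by
    rw [hlamdef]
    positivity
  have hlamX : lam * (-log x + b) = K₀ := by
    rw [hlamdef]
    field_simp
  have hlamle : lam ≤ lamc := by
    rw [hlamdef, div_le_iff₀ hD]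
    have hc0 : 0 ≤ lamc := by
      by_contra hneg
      rw [not_le] at hneg
      have : lamc * (-log x₀ + b) < 0 :=
        mul_neg_of_neg_of_pos hneg (by have := log_neg hx₀ (by linarith : x₀ < 1); linarith)
      linarith
    have : lamc * (-log x₀ + b) ≤ lamc * (-log x + b) :=
      mul_le_mul_of_nonneg_left (by linarith) hc0
    linarith
  have hlam1 : lam ≤ 1 := hlamle.trans hlamc1
  have hexp1 := corner_exp hx0 hK₀ hD hlamdef hlam1 hA0 hA hK
  have hδ0 : 0 ≤ η * x := by positivity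
  have hsep : Sep ε (1 - lam) (η * x) := by
    apply corner_sep h0 h1 hlam0 hlamle he₁ he₂ hw hsep2 hδ0
    exact corner_exp2 hlam0.le hlamle hx0.le (exp_pos _).le hEb hA0.le hAhi hH hq hexp1 hfin
  have hplane := plane_of_sep2 (μ := 1 - lam) (δ := η * x) h0 h1 (by linarith) hsep
  have hc0 : 0 ≤ 2 - η * x := by nlinarith
  apply closeAt_of_plane hplane (by linarith) hc0 hH
  have hL1 := LK_le_one (a := (a₁ + a₂) / 2) hκ hξ1
  have hgap := LK_gap hκ hξ1 ha₁ ha₂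
  rw [← hx] at hgap
  have hlow := LK_lower hκ hξ1 hx0 hx1
  have hX0 : 0 ≤ -log x := by linarith
  have hk := corner_K (K := K₀) (κ := κ) (Ξ := 1 - κ * log 2) (Ξlo := Ξlo) (X := -log x) (b := b)
    (η := η) (x := x) (x₀ := x₀) hK₀ hX0 hκ hξ hξ0 hxx hx₀1 hc1 hc2
  have hlam2 : 2 + η ≤ lam * (κ * (-log x + (1 - x)) + 4 * (1 - κ * log 2) * (1 - x)) := by
    have h3 : (2 + η) * (-log x + b)
        ≤ lam * (κ * (-log x + (1 - x)) + 4 * (1 - κ * log 2) * (1 - x)) * (-log x + b) := by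
      have e : lam * (κ * (-log x + (1 - x)) + 4 * (1 - κ * log 2) * (1 - x)) * (-log x + b)
          = (lam * (-log x + b)) * (κ * (-log x + (1 - x)) + 4 * (1 - κ * log 2) * (1 - x)) := by
        ring
      rw [e, hlamX]
      exact hk
    exact le_of_mul_le_mul_right h3 hD
  have hlam3 : x * (2 + η) ≤ lam * LK κ x := by
    have h3 := mul_le_mul_of_nonneg_left hlam2 hx0.le
    have h4 := mul_le_mul_of_nonneg_left hlow hlam0.le
    have e : x * (lam * (κ * (-log x + (1 - x)) + 4 * (1 - κ * log 2) * (1 - x)))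
        = lam * (x * (κ * (-log x + (1 - x)) + 4 * (1 - κ * log 2) * (1 - x))) := by ring
    rw [e] at h3
    linarith
  have hd : |a₁ - a₂| = 1 - x := by rw [hx]; ring
  rw [hd, show 1 - (1 - lam) = lam by ring]
  exact corner_last hlam0.le hx0.le hη hgap hL1 hlam3

end Vale.Agent.P322
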