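import Vale.Agent.P322.W.Plane2

/-!
The regimes of the closure: the first method, the Cauchy-Schwarz planes, the cells and the
corner family.
-/

namespace Vale.Agent.P322

open Real

/-- From a plane to the closure. -/
lemma closeAt_of_plane {ε κ a₁ a₂ μ c : ℝ} (hP : Plane ε μ (binEntropy ε * c)) (hμ : μ ≤ 1)
    (hc : 0 ≤ c) (hH : 0 ≤ binEntropy ε)
    (hk : 2 * LK κ ((a₁ + a₂) / 2) ≤ (1 - μ) * (LK κ a₁ + LK κ a₂) + c * |a₁ - a₂|) :
    CloseAt ε κ a₁ a₂ := by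
  left
  refine ⟨μ, binEntropy ε * c, hP, hμ, mul_nonneg hH hc, ?_⟩
  have := mul_le_mul_of_nonneg_left hk hH
  nlinarith

lemma JJ_nonneg {u w : ℝ} (hu : u ∈ Set.Icc (0 : ℝ) 1) (hw : w ∈ Set.Icc (0 : ℝ) 1) :
    0 ≤ JJ u w := by
  have hc := strictConcave_binEntropy.concaveOn
  have h3 := hc.2 hu hw (show (0 : ℝ) ≤ 1 / 2 by norm_num) (show (0 : ℝ) ≤ 1 / 2 by norm_num)
    (by norm_num)
  simp only [smul_eq_mul] at h3
  unfold JJ
  rw [show (u + w) / 2 = 1 / 2 * u + 1 / 2 * w by ring]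
  linarith

/-- The defect in terms of `Om`. -/
lemma JJ_Om {c τ : ℝ} (hc0 : 0 < c) (hc1 : c < 1) :
    2 * JJ (c + τ) (c - τ) = c * Om (τ / c) + (1 - c) * Om (τ / (1 - c)) := by
  have hc1' : 0 < 1 - c := by linarith
  have m1 := midpoint_formula (δ := τ) hc0.ne' hc1'.ne'
  unfold JJ
  rw [show (c + τ + (c - τ)) / 2 = c by ring, m1]
  ring

/-- `d² ≤ 8 φ(c) J`. -/
lemma JJ_lower {u w : ℝ} (hu : u ∈ Set.Icc (0 : ℝ) 1) (hw : w ∈ Set.Icc (0 : ℝ) 1) :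
    (u - w) ^ 2 ≤ 8 * ((u + w) / 2 * (1 - (u + w) / 2)) * JJ u w := by
  obtain ⟨hu0, hu1⟩ := hu
  obtain ⟨hw0, hw1⟩ := hw
  set c := (u + w) / 2 with hc
  set τ := (u - w) / 2 with hτ
  rcases eq_or_lt_of_le (show 0 ≤ c by rw [hc]; positivity) with hc0 | hc0
  · have hu' : u = 0 := by linarith
    have hw' : w = 0 := by linarith
    have hJ0 : JJ u w = 0 := by
      rw [hu', hw']
      simp [JJ]
    rw [hJ0, hu', hw']
    simp
  rcases eq_or_lt_of_le (show c ≤ 1 by rw [hc]; linarith) with hc1 | hc1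
  · have hu' : u = 1 := by linarith
    have hw' : w = 1 := by linarith
    have hJ0 : JJ u w = 0 := by
      rw [hu', hw']
      norm_num [JJ]
    rw [hJ0, hu', hw']
    simp
  have hc1' : 0 < 1 - c := by linarith
  have eu : u = c + τ := by rw [hc, hτ]; ring
  have ew : w = c - τ := by rw [hc, hτ]; ring
  have hz1 : |τ / c| ≤ 1 := by
    rw [abs_div, abs_of_pos hc0, div_le_one hc0, abs_le, hτ, hc]
    constructor <;> linarith
  have hz2 : |τ / (1 - c)| ≤ 1 := by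
    rw [abs_div, abs_of_pos hc1', div_le_one hc1', abs_le, hτ, hc]
    constructor <;> linarith
  have g1 := Om_gap (ρ := 0) (le_refl _) (by norm_num) hz1
  have g2 := Om_gap (ρ := 0) (le_refl _) (by norm_num) hz2
  simp only [zero_mul, Om_zero] at g1 g2
  have hJ := JJ_Om (τ := τ) hc0 hc1
  rw [← eu, ← ew] at hJ
  have hφ : 0 < c * (1 - c) := mul_pos hc0 hc1'
  have t1 := mul_le_mul_of_nonneg_left g1 (mul_nonneg hc0.le hφ.le)
  have t2 := mul_le_mul_of_nonneg_left g2 (mul_nonneg hc1'.le hφ.le)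
  have q1 : c * (c * (1 - c)) * ((1 - 0 ^ 2) * (τ / c) ^ 2) = (1 - c) * τ ^ 2 := by
    field_simp
    ring
  have q2 : (1 - c) * (c * (1 - c)) * ((1 - 0 ^ 2) * (τ / (1 - c)) ^ 2) = c * τ ^ 2 := by
    field_simp
    ring
  rw [q1] at t1
  rw [q2] at t2
  have e : (u - w) ^ 2 = 4 * τ ^ 2 := by rw [hτ]; ring
  rw [e]
  nlinarith

/-- `Om z ≤ C z²` below `z₀`. -/
lemma Om_le_of_le {z z₀ C : ℝ} (hz0 : 0 ≤ z) (hzz : z ≤ z₀) (hz1 : z₀ ≤ 1)
    (hC : Om z₀ ≤ C * z₀ ^ 2) : Om z ≤ C * z ^ 2 := by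
  rcases eq_or_lt_of_le hz0 with rfl | hz
  · simp [Om_zero]
  · have hz₀ : 0 < z₀ := by linarith
    have := Om_ratio_mono ⟨hz, by linarith⟩ ⟨hz₀, hz1⟩ hzz
    simp only at this
    have hp : 0 < z₀ ^ 2 := by positivity
    have hp2 : 0 < z ^ 2 := by positivity
    have h3 : Om z₀ / z₀ ^ 2 ≤ C := (div_le_iff₀ hp).mpr hC
    have h4 := this.trans h3
    exact (div_le_iff₀ hp2).mp h4

/-- The upper bound for the defect. -/
lemma JJ_upper {c d z₀ C : ℝ} (hc0 : 0 < c) (hc2 : c ≤ 1 / 2) (hd0 : 0 ≤ d) (hdz : d ≤ 2 * z₀ * c)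
    (hz1 : z₀ ≤ 1) (hC : Om z₀ ≤ C * z₀ ^ 2) :
    8 * (c * (1 - c)) * JJ (c + d / 2) (c - d / 2) ≤ C * d ^ 2 := by
  have hc1 : c < 1 := by linarith
  have hc1' : 0 < 1 - c := by linarith
  have hJ := JJ_Om (τ := d / 2) hc0 hc1
  have hz1' : d / 2 / c ≤ z₀ := by
    rw [div_le_iff₀ hc0]
    linarith
  have hz2' : d / 2 / (1 - c) ≤ z₀ := by
    have hz₀0 : 0 ≤ z₀ := by
      by_contra h
      rw [not_le] at h
      nlinarith
    rw [div_le_iff₀ hc1']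
    nlinarith
  have g1 := Om_le_of_le (z := d / 2 / c) (by positivity) hz1' hz1 hC
  have g2 := Om_le_of_le (z := d / 2 / (1 - c)) (by positivity) hz2' hz1 hC
  have hφ : 0 < c * (1 - c) := mul_pos hc0 hc1'
  have t1 := mul_le_mul_of_nonneg_left g1 (mul_nonneg hc0.le hφ.le)
  have t2 := mul_le_mul_of_nonneg_left g2 (mul_nonneg hc1'.le hφ.le)
  have q1 : c * (c * (1 - c)) * (C * (d / 2 / c) ^ 2) = (1 - c) * (C * (d / 2) ^ 2) := by
    field_simp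
  have q2 : (1 - c) * (c * (1 - c)) * (C * (d / 2 / (1 - c)) ^ 2) = c * (C * (d / 2) ^ 2) := by
    field_simp
  rw [q1] at t1
  rw [q2] at t2
  have e : 8 * (c * (1 - c)) * JJ (c + d / 2) (c - d / 2)
      = 4 * (c * (1 - c)) * (2 * JJ (c + d / 2) (c - d / 2)) := by ring
  rw [e, hJ]
  nlinarith

/-- The first method closes for small `φ`. -/
lemma close_A {ε κ a₁ a₂ v₀ Ξ : ℝ} (h0 : 0 ≤ ε) (h1 : ε ≤ 1) (ha₁ : a₁ ∈ Set.Icc (0 : ℝ) 1)
    (ha₂ : a₂ ∈ Set.Icc (0 : ℝ) 1) (hv : (a₁ + a₂) / 2 * (1 - (a₁ + a₂) / 2) ≤ v₀)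
    (hΞ : 1 - κ * log 2 ≤ Ξ) (hsize : binEntropy ε * (κ + 8 * Ξ * v₀) ≤ 4 * (ε * (1 - ε)))
    (hΞ0 : 0 ≤ Ξ) :
    CloseAt ε κ a₁ a₂ := by
  right
  have hH : 0 ≤ binEntropy ε := binEntropy_nonneg h0 h1
  rw [LK_mid]
  have hJ0 := JJ_nonneg ha₁ ha₂
  have hJl := JJ_lower ha₁ ha₂
  set J := JJ a₁ a₂ with hJ
  set v := (a₁ + a₂) / 2 * (1 - (a₁ + a₂) / 2) with hvd
  have h2 : (a₁ - a₂) ^ 2 ≤ 8 * v₀ * J := by
    have : v * J ≤ v₀ * J := mul_le_mul_of_nonneg_right hv hJ0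
    nlinarith
  have h3 : binEntropy ε * (1 - κ * log 2) * (a₁ - a₂) ^ 2 ≤ binEntropy ε * Ξ * (8 * v₀ * J) :=
    mul_le_mul (mul_le_mul_of_nonneg_left hΞ hH) h2 (sq_nonneg _) (mul_nonneg hH hΞ0)
  have h4 := mul_le_mul_of_nonneg_right hsize hJ0
  nlinarith

/-- `LK` is nonnegative. -/
lemma LK_nonneg {κ a : ℝ} (hκ : 0 ≤ κ) (hξ : 0 ≤ 1 - κ * log 2) (h0 : 0 ≤ a) (h1 : a ≤ 1) :
    0 ≤ LK κ a := by
  unfold LK
  have h4 := binEntropy_nonneg h0 h1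
  have h5 : 0 ≤ 4 * a * (1 - a) := mul_nonneg (by linarith) (by linarith)
  positivity

lemma LK_le_one {κ a : ℝ} (hκ : 0 ≤ κ) (hξ : 0 ≤ 1 - κ * log 2) : LK κ a ≤ 1 := by
  unfold LK
  have h3 : κ * binEntropy a ≤ κ * log 2 := mul_le_mul_of_nonneg_left binEntropy_le_log_two hκ
  have h4 : (1 - κ * log 2) * (4 * a * (1 - a)) ≤ (1 - κ * log 2) * 1 :=
    mul_le_mul_of_nonneg_left (four_mul_le_one a) hξ
  linarith

/-- The computation behind the second method, in plain variables. -/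
lemma B_core {H A Z E Lc d Y y l : ℝ} (hH : 0 ≤ H) (hA : 0 ≤ A) (hl : 0 < l) (hY : Y = H * Lc / l + d)
    (hYpos : 0 < Y) (hyY : y * Y = 4 * d) (hE0 : 0 ≤ E) (hLc : Lc = Z / 2 + E)
    (hE : H * E * Y ≤ 2 * A * d ^ 2) :
    2 * H * Lc ≤ (1 - A * y ^ 2 / (8 * l)) * (H * Z) + A * (2 * y - y ^ 2 / 4) * d := by
  have hB : Z ≤ 2 * Lc := by linarith
  have hBlow : H * Z / (8 * l) + d / 4 ≤ Y / 4 := by
    have h10 : H * Z ≤ H * (2 * Lc) := mul_le_mul_of_nonneg_left hB hH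
    have h11 : H * Z / (8 * l) ≤ H * (2 * Lc) / (8 * l) :=
      div_le_div_of_nonneg_right h10 (by positivity)
    have e6 : H * (2 * Lc) / (8 * l) = H * Lc / l / 4 := by
      field_simp
      ring
    rw [e6] at h11
    rw [hY]
    linarith
  have hA2 : 0 ≤ A * y ^ 2 := by positivity
  have h12 := mul_le_mul_of_nonneg_left hBlow hA2
  have e7 : (1 - A * y ^ 2 / (8 * l)) * (H * Z) + A * (2 * y - y ^ 2 / 4) * d
      = H * Z + A * (2 * y * d) - A * y ^ 2 * (H * Z / (8 * l) + d / 4) := by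
    field_simp
    ring
  rw [e7]
  have e8 : A * (2 * y * d) - A * y ^ 2 * (Y / 4) = A * y * d := by
    have : y ^ 2 * (Y / 4) = y * (y * Y) / 4 := by ring
    rw [mul_assoc A (y ^ 2), this, hyY]
    ring
  have hyd : y * d * Y = 4 * d ^ 2 := by
    have : y * d * Y = (y * Y) * d := by ring
    rw [this, hyY]
    ring
  have hfin : H * E ≤ A * y * d / 2 := by
    have h13 : H * E * Y ≤ (A * y * d / 2) * Y := by
      have e9 : (A * y * d / 2) * Y = A * (y * d * Y) / 2 := by ring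
      rw [e9, hyd]
      linarith
    exact le_of_mul_le_mul_right h13 hYpos
  have e10 : 2 * H * Lc = H * Z + 2 * (H * E) := by
    rw [hLc]
    ring
  rw [e10]
  linarith

/-- The second method: the Cauchy-Schwarz planes. -/
lemma close_B {ε κ c d z₀ C : ℝ} (h0 : 0 < ε) (h1 : ε ≤ 1 / 2) (hκ : 0 ≤ κ)
    (hξ : 0 ≤ 1 - κ * log 2) (hc0 : 0 < c) (hc2 : c ≤ 1 / 2) (hd0 : 0 < d) (hdc : d ≤ 2 * c)
    (hdz : d ≤ 2 * z₀ * c) (hz1 : z₀ ≤ 1) (hC : Om z₀ ≤ C * z₀ ^ 2)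
    (hsize : binEntropy ε * (κ * C / (8 * (c * (1 - c))) + (1 - κ * log 2))
        * (binEntropy ε * LK κ c / log 2 + d) ≤ 2 * (ε * (1 - ε))) :
    CloseAt ε κ (c + d / 2) (c - d / 2) := by
  have hε1 : ε ≤ 1 := by linarith
  have hH : 0 ≤ binEntropy ε := binEntropy_nonneg h0.le hε1
  have hl : 0 < log 2 := log_pos (by norm_num)
  have hl2 := log_two_gt_d9
  have hA : 0 ≤ ε * (1 - ε) := mul_nonneg h0.le (by linarith)
  have hA4 : ε * (1 - ε) ≤ 1 / 4 := by nlinarith [sq_nonneg (ε - 1 / 2)]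
  have ha₁ : c + d / 2 ∈ Set.Icc (0 : ℝ) 1 := ⟨by linarith, by linarith⟩
  have ha₂ : c - d / 2 ∈ Set.Icc (0 : ℝ) 1 := ⟨by linarith, by linarith⟩
  have ec : (c + d / 2 + (c - d / 2)) / 2 = c := by ring
  have ed : |c + d / 2 - (c - d / 2)| = d := by
    rw [show c + d / 2 - (c - d / 2) = d by ring, abs_of_pos hd0]
  have hLc : 0 ≤ LK κ c := LK_nonneg hκ hξ hc0.le (by linarith)
  have hYpos : 0 < binEntropy ε * LK κ c / log 2 + d := by positivity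
  have hdY : d ≤ binEntropy ε * LK κ c / log 2 + d := by
    have : 0 ≤ binEntropy ε * LK κ c / log 2 := by positivity
    linarith
  obtain ⟨Y, hY⟩ : ∃ Y, Y = binEntropy ε * LK κ c / log 2 + d := ⟨_, rfl⟩
  rw [← hY] at hsize hYpos hdY
  obtain ⟨y, hy⟩ : ∃ y, y = 4 * d / Y := ⟨_, rfl⟩
  have hy0 : 0 ≤ y := by
    rw [hy]
    positivity
  have hy4 : y ≤ 4 := by
    rw [hy, div_le_iff₀ hYpos]
    linarith
  have hyY : y * Y = 4 * d := by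
    rw [hy]
    field_simp
  left
  refine ⟨_, _, plane_B (y := y) h0.le h1, ?_, ?_, ?_⟩
  · rw [div_le_one (by positivity)]
    have h3 : y ^ 2 ≤ 16 := by nlinarith
    have h4 : ε * (1 - ε) * y ^ 2 ≤ 1 / 4 * 16 := mul_le_mul hA4 h3 (sq_nonneg _) (by norm_num)
    nlinarith
  · apply mul_nonneg hA
    nlinarith
  · rw [ec, ed]
    have hJ0 := JJ_nonneg ha₁ ha₂
    have hJu := JJ_upper hc0 hc2 hd0.le hdz hz1 hC
    have hmid := LK_mid κ (c + d / 2) (c - d / 2)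
    rw [ec, show c + d / 2 - (c - d / 2) = d by ring] at hmid
    -- the bound on the defect
    have hφ : 0 < c * (1 - c) := mul_pos hc0 (by linarith)
    have hJ2 : JJ (c + d / 2) (c - d / 2) ≤ C * d ^ 2 / (8 * (c * (1 - c))) := by
      rw [le_div_iff₀ (by positivity)]
      linarith
    have hdef : κ * JJ (c + d / 2) (c - d / 2) + (1 - κ * log 2) * d ^ 2
        ≤ (κ * C / (8 * (c * (1 - c))) + (1 - κ * log 2)) * d ^ 2 := by
      have h5 := mul_le_mul_of_nonneg_left hJ2 hκ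
      have e5 : κ * (C * d ^ 2 / (8 * (c * (1 - c)))) = κ * C / (8 * (c * (1 - c))) * d ^ 2 := by
        ring
      rw [e5] at h5
      linarith
    have hE0 : 0 ≤ κ * JJ (c + d / 2) (c - d / 2) + (1 - κ * log 2) * d ^ 2 := by positivity
    have hYfull : binEntropy ε * (κ * JJ (c + d / 2) (c - d / 2) + (1 - κ * log 2) * d ^ 2) * Y
        ≤ 2 * (ε * (1 - ε)) * d ^ 2 := by
      have h9 := mul_le_mul_of_nonneg_right (mul_le_mul_of_nonneg_left hdef hH) hYpos.le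
      have h10 := mul_le_mul_of_nonneg_right hsize (sq_nonneg d)
      nlinarith
    exact B_core hH hA hl hY hYpos hyY hE0 (by linarith) hYfull

/-! ### Cells -/

/-- Validity of a pair `(A, d)`. -/
def Vld (A d : ℝ) : Prop := A + d / 2 ∈ Set.Icc (0 : ℝ) 1 ∧ A - d / 2 ∈ Set.Icc (0 : ℝ) 1

lemma Vld.mix {t A₁ d₁ A₂ d₂ : ℝ} (ht0 : 0 ≤ t) (ht1 : t ≤ 1) (h1 : Vld A₁ d₁) (h2 : Vld A₂ d₂) :
    Vld (t * A₁ + (1 - t) * A₂) (t * d₁ + (1 - t) * d₂) := by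
  obtain ⟨⟨a1, a2⟩, ⟨a3, a4⟩⟩ := h1
  obtain ⟨⟨b1, b2⟩, ⟨b3, b4⟩⟩ := h2
  have ht2 : 0 ≤ 1 - t := by linarith
  refine ⟨⟨?_, ?_⟩, ⟨?_, ?_⟩⟩ <;> nlinarith

/-- The concave function attached to a cell. -/
noncomputable def fcell (κ Ξ μ c m₀ m₁ A d : ℝ) : ℝ :=
  c / 2 * d - (1 - μ) * (κ * JJ (A + d / 2) (A - d / 2)) - (1 - μ) * (Ξ * d ^ 2)
    - μ * (m₀ + m₁ * A)

lemma fcell_mix {κ Ξ μ c m₀ m₁ t A₁ d₁ A₂ d₂ : ℝ} (hκ : 0 ≤ κ) (hΞ : 0 ≤ Ξ) (hμ : μ ≤ 1)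
    (ht0 : 0 ≤ t) (ht1 : t ≤ 1) (h1 : Vld A₁ d₁) (h2 : Vld A₂ d₂) :
    t * fcell κ Ξ μ c m₀ m₁ A₁ d₁ + (1 - t) * fcell κ Ξ μ c m₀ m₁ A₂ d₂
      ≤ fcell κ Ξ μ c m₀ m₁ (t * A₁ + (1 - t) * A₂) (t * d₁ + (1 - t) * d₂) := by
  have hJ := JJ_two_point ht0 ht1 h1.1 h1.2 h2.1 h2.2
  rw [show t * (A₁ + d₁ / 2) + (1 - t) * (A₂ + d₂ / 2)
      = t * A₁ + (1 - t) * A₂ + (t * d₁ + (1 - t) * d₂) / 2 by ring,
    show t * (A₁ - d₁ / 2) + (1 - t) * (A₂ - d₂ / 2)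
      = t * A₁ + (1 - t) * A₂ - (t * d₁ + (1 - t) * d₂) / 2 by ring] at hJ
  have ht2 : 0 ≤ 1 - t := by linarith
  have hsq : (t * d₁ + (1 - t) * d₂) ^ 2 ≤ t * d₁ ^ 2 + (1 - t) * d₂ ^ 2 := by
    have : t * d₁ ^ 2 + (1 - t) * d₂ ^ 2 - (t * d₁ + (1 - t) * d₂) ^ 2
        = t * (1 - t) * (d₁ - d₂) ^ 2 := by ring
    have h3 : 0 ≤ t * (1 - t) * (d₁ - d₂) ^ 2 := by positivity
    linarith
  have hm : 0 ≤ 1 - μ := by linarith
  have t1 := mul_le_mul_of_nonneg_left hJ (mul_nonneg hm hκ)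
  have t2 := mul_le_mul_of_nonneg_left hsq (mul_nonneg hm hΞ)
  unfold fcell
  nlinarith

/-- The value at a point of a cell from the four corners. -/
lemma fcell_corners {κ Ξ μ c m₀ m₁ AL AR db tL tR A d : ℝ} (hκ : 0 ≤ κ) (hΞ : 0 ≤ Ξ) (hμ : μ ≤ 1)
    (hAA : AL < AR) (hA0 : AL ≤ A) (hA1 : A ≤ AR)
    (v1 : Vld AL db) (v2 : Vld AR db) (v3 : Vld AL tL) (v4 : Vld AR tR)
    (f1 : 0 ≤ fcell κ Ξ μ c m₀ m₁ AL db) (f2 : 0 ≤ fcell κ Ξ μ c m₀ m₁ AR db)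
    (f3 : 0 ≤ fcell κ Ξ μ c m₀ m₁ AL tL) (f4 : 0 ≤ fcell κ Ξ μ c m₀ m₁ AR tR)
    (hd0 : db ≤ d)
    (hd1 : (AR - AL) * d ≤ (AR - A) * tL + (A - AL) * tR) :
    0 ≤ fcell κ Ξ μ c m₀ m₁ A d := by
  have hD : 0 < AR - AL := by linarith
  set s := (AR - A) / (AR - AL) with hs
  have hs0 : 0 ≤ s := div_nonneg (by linarith) hD.le
  have hs1 : s ≤ 1 := by
    rw [hs, div_le_one hD]
    linarith
  have eA : s * AL + (1 - s) * AR = A := by
    rw [hs]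
    field_simp
    ring
  set t := s * tL + (1 - s) * tR with ht
  have hdt : d ≤ t := by
    have e : (AR - AL) * t = (AR - A) * tL + (A - AL) * tR := by
      rw [ht, hs]
      field_simp
      ring
    have : (AR - AL) * d ≤ (AR - AL) * t := by
      rw [e]
      exact hd1
    exact le_of_mul_le_mul_left this hD
  -- bottom and top points
  have vb := Vld.mix (d₁ := db) (d₂ := db) hs0 hs1 v1 v2
  have vt := Vld.mix hs0 hs1 v3 v4
  have fb := fcell_mix (κ := κ) (Ξ := Ξ) (μ := μ) (c := c) (m₀ := m₀) (m₁ := m₁) hκ hΞ hμ hs0 hs1 v1 v2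
  have ft := fcell_mix (κ := κ) (Ξ := Ξ) (μ := μ) (c := c) (m₀ := m₀) (m₁ := m₁) hκ hΞ hμ hs0 hs1 v3 v4
  have eb : s * db + (1 - s) * db = db := by ring
  rw [eA, eb] at fb
  rw [eA] at ft vt
  rw [eA, eb] at vb
  rw [← ht] at ft vt
  have hs2 : 0 ≤ 1 - s := by linarith
  have fb0 : 0 ≤ fcell κ Ξ μ c m₀ m₁ A db := by
    have := mul_nonneg hs0 f1
    have := mul_nonneg hs2 f2
    linarith
  have ft0 : 0 ≤ fcell κ Ξ μ c m₀ m₁ A t := by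
    have := mul_nonneg hs0 f3
    have := mul_nonneg hs2 f4
    linarith
  rcases eq_or_lt_of_le (hd0.trans hdt) with hE | hL
  · have : d = db := by linarith
    rw [this]
    exact fb0
  have hD2 : 0 < t - db := by linarith
  set r := (t - d) / (t - db) with hr
  have hr0 : 0 ≤ r := div_nonneg (by linarith) hD2.le
  have hr1 : r ≤ 1 := by
    rw [hr, div_le_one hD2]
    linarith
  have hr2 : 0 ≤ 1 - r := by linarith
  have e1 : r * db + (1 - r) * t = d := by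
    rw [hr]
    field_simp
    ring
  have e2 : r * A + (1 - r) * A = A := by ring
  have := fcell_mix (κ := κ) (Ξ := Ξ) (μ := μ) (c := c) (m₀ := m₀) (m₁ := m₁) hκ hΞ hμ hr0 hr1 vb vt
  rw [e1, e2] at this
  have h5 := mul_nonneg hr0 fb0
  have h6 := mul_nonneg hr2 ft0
  linarith

/-- The closure from the concave function. -/
lemma close_of_fcell {ε κ Ξ μ c m₀ m₁ A d : ℝ} (hP : Plane ε μ (binEntropy ε * c)) (hμ : μ ≤ 1)
    (hμ0 : 0 ≤ μ) (hc : 0 ≤ c) (hH : 0 ≤ binEntropy ε) (hd0 : 0 ≤ d) (hΞ : 1 - κ * log 2 ≤ Ξ)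
    (hL : LK κ A ≤ m₀ + m₁ * A) (hf : 0 ≤ fcell κ Ξ μ c m₀ m₁ A d) :
    CloseAt ε κ (A + d / 2) (A - d / 2) := by
  apply closeAt_of_plane hP hμ hc hH
  rw [show A + d / 2 - (A - d / 2) = d by ring, abs_of_nonneg hd0,
    show (A + d / 2 + (A - d / 2)) / 2 = A by ring]
  have hmid := LK_mid κ (A + d / 2) (A - d / 2)
  rw [show (A + d / 2 + (A - d / 2)) / 2 = A by ring,
    show A + d / 2 - (A - d / 2) = d by ring] at hmid
  unfold fcell at hf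
  have hm : 0 ≤ 1 - μ := by linarith
  have t1 : (1 - μ) * ((1 - κ * log 2) * d ^ 2) ≤ (1 - μ) * (Ξ * d ^ 2) :=
    mul_le_mul_of_nonneg_left (mul_le_mul_of_nonneg_right hΞ (sq_nonneg _)) hm
  have t2 := mul_le_mul_of_nonneg_left hL hμ0
  set J := JJ (A + d / 2) (A - d / 2) with hJ
  set L₁ := LK κ (A + d / 2) with hL₁
  set L₂ := LK κ (A - d / 2) with hL₂
  have e : L₁ + L₂ = 2 * LK κ A - 2 * (κ * J) - 2 * ((1 - κ * log 2) * d ^ 2) := by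
    rw [hmid]
    ring
  rw [e]
  nlinarith

end Vale.Agent.P322
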